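import Crest.Agent.N325.M0.Mon
import Mathlib
import Crest.Agent.N325.M0.Prob
import Crest.Agent.N325.Lst.ListImpl
import Crest.Agent.N325.Op.Impl
import Crest.Agent.N325.On.Defs
import Crest.Agent.N325.P2.Edge
import Crest.Agent.N325.P2.Dual2

-- ▼ part N325/Wk/Bits
section

/-!
# Row 325 (helper79): sums over bit strings, numbers read from bits, selection by weight, blocks
-/

set_option autoImplicit false
open Finset

namespace Crest.Agent.N325.Wk

/-- sum over all bit strings of length `n` -/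
noncomputable def sb (n : ℕ) (F : List Bool → ℝ) : ℝ := ∑ v : Fin n → Bool, F (List.ofFn v)

theorem sb_add (a b : ℕ) (F : List Bool → ℝ) :
    sb (a + b) F = sb a fun x => sb b fun y => F (x ++ y) := by
  unfold sb
  rw [← (Fin.appendEquiv a b).sum_comp, Fintype.sum_prod_type]
  exact sum_congr rfl fun x _ => sum_congr rfl fun y _ => congrArg F (List.ofFn_fin_append x y)

theorem sb_zero (F : List Bool → ℝ) : sb 0 F = F [] := by simp [sb]

theorem sb_succ (n : ℕ) (F : List Bool → ℝ) :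
    sb (n + 1) F = (sb n fun l => F (false :: l)) + sb n fun l => F (true :: l) := by
  rw [add_comm n 1, sb_add, sb, ← (Equiv.funUnique (Fin 1) Bool).symm.sum_comp,
    Fintype.sum_bool, add_comm]
  rfl

theorem sb_mono {n : ℕ} {F G : List Bool → ℝ} (h : ∀ l, l.length = n → F l ≤ G l) :
    sb n F ≤ sb n G := sum_le_sum fun _ _ => h _ List.length_ofFn

theorem sb_const (n : ℕ) (c : ℝ) : (sb n fun _ => c) = 2 ^ n * c := by simp [sb]

theorem sb_add' (n : ℕ) (F G : List Bool → ℝ) : (sb n fun l => F l + G l) = sb n F + sb n G :=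
  sum_add_distrib

theorem sb_mul (n : ℕ) (c : ℝ) (F : List Bool → ℝ) : (sb n fun l => c * F l) = c * sb n F :=
  (mul_sum _ _ _).symm

theorem sb_sum {ι : Type} (n : ℕ) (J : Finset ι) (F : ι → List Bool → ℝ) :
    (sb n fun l => ∑ j ∈ J, F j l) = ∑ j ∈ J, sb n (F j) := sum_comm

open Classical in
theorem bad_eq (n : ℕ) (G : List Bool → Prop) :
    bad n G = (sb n fun l => if G l then 0 else 1) / 2 ^ n := by
  unfold bad sb
  congr 1
  rw [card_filter, Nat.cast_sum]
  exact sum_congr rfl fun v _ => by by_cases c : G (List.ofFn v) <;> simp only [c] <;> simp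

/-- read `k` bits -/
def rd : ℕ → ℕ × List Bool → ℕ × List Bool
  | 0, s => s
  | k + 1, s => rd k (2 * s.1 + (s.2.headD false).toNat, s.2.tail)

theorem sb_rd (K m r : ℕ) (F : ℕ × List Bool → ℝ) : (sb (K + m) fun l => F (rd K (r, l))) =
    ∑ j ∈ range (2 ^ K), sb m fun y => F (r * 2 ^ K + j, y) := by
  induction K generalizing r with
  | zero => simp [rd]
  | succ K ih =>
    rw [show K + 1 + m = K + m + 1 by omega, sb_succ, pow_succ, mul_two, sum_range_add]
    simp only [rd, List.headD_cons, List.tail_cons, ih, Bool.toNat_false, Bool.toNat_true]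
    congr 1 <;> refine sum_congr rfl fun j _ => ?_ <;> congr <;> funext y <;> congr 2 <;> ring

theorem rd_lt (K : ℕ) (s : ℕ × List Bool) : (rd K s).1 < (s.1 + 1) * 2 ^ K := by
  induction K generalizing s with
  | zero => simp [rd]
  | succ K ih =>
    refine (ih _).trans_le ?_
    have := Bool.toNat_le (s.2.headD false)
    rw [pow_succ, mul_comm _ 2, ← mul_assoc]
    exact Nat.mul_le_mul_right _ (by dsimp only; omega)

variable {α : Type}

/-- selection by cumulative weight -/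
def pick : ℕ → List (ℕ × α) → Option α
  | _, [] => none
  | r, x :: l => if r < x.1 then some x.2 else pick (r - x.1) l

/-- total weight -/
def tw (l : List (ℕ × α)) : ℕ := (l.map Prod.fst).sum

theorem pick_mem {r : ℕ} {l : List (ℕ × α)} {x : α} (h : pick r l = some x) :
    ∃ f, 0 < f ∧ (f, x) ∈ l := by
  induction l generalizing r with
  | nil => cases h
  | cons y l ih =>
    rw [pick] at h
    split_ifs at h with c
    · cases h; exact ⟨y.1, by omega, List.mem_cons_self⟩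
    · obtain ⟨f, a, b⟩ := ih h; exact ⟨f, a, List.mem_cons_of_mem _ b⟩

theorem sum_pick_le (F : Option α → ℝ) (hF : ∀ o, 0 ≤ F o) (l : List (ℕ × α)) (Q : ℕ) :
    ∑ r ∈ range Q, F (pick r l) ≤
      (l.map fun x => (x.1 : ℝ) * F (some x.2)).sum + ((Q - tw l : ℕ) : ℝ) * F none := by
  induction l generalizing Q with
  | nil => simp [pick, tw]
  | cons x l ih =>
    have h1 : ∑ r ∈ range Q, F (pick r (x :: l)) ≤
        ∑ r ∈ range (x.1 + (Q - x.1)), F (pick r (x :: l)) :=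
      sum_le_sum_of_subset_of_nonneg (range_mono (by omega)) fun _ _ _ => hF _
    rw [sum_range_add] at h1
    have h2 : ∑ r ∈ range x.1, F (pick r (x :: l)) = x.1 * F (some x.2) := by
      rw [sum_congr rfl fun r hr => by rw [pick, if_pos (mem_range.1 hr)]]; simp
    have h3 : ∑ r ∈ range (Q - x.1), F (pick (x.1 + r) (x :: l)) =
        ∑ r ∈ range (Q - x.1), F (pick r l) :=
      sum_congr rfl fun r _ => by rw [pick, if_neg (by omega), Nat.add_sub_cancel_left]
    have h4 := ih (Q - x.1)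
    rw [List.map_cons, List.sum_cons, show Q - tw (x :: l) = Q - x.1 - tw l by
      simp only [tw, List.map_cons, List.sum_cons]; omega]
    linarith

/-- `L` blocks of `M` bits -/
def blocks (M : ℕ) : ℕ → List Bool → List (List Bool)
  | 0, _ => []
  | L + 1, l => l.take M :: blocks M L (l.drop M)

open Classical in
theorem sb_blocks {M : ℕ} {G : List Bool → Prop} {p : ℝ} (hp : 0 ≤ p)
    (h : (sb M fun l => if G l then 0 else 1) ≤ 2 ^ M * p) (L : ℕ) :
    (sb (L * M) fun l => if ∃ b ∈ blocks M L l, G b then 0 else 1) ≤ 2 ^ (L * M) * p ^ L := by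
  induction L with
  | zero => simp [sb_zero, blocks]
  | succ L ih =>
    rw [show (L + 1) * M = M + L * M by ring, sb_add]
    refine le_trans (sb_mono (G := fun x => 2 ^ (L * M) * p ^ L * if G x then 0 else 1)
      fun x hx => ?_) ?_
    · simp only [blocks, List.take_left' hx, List.drop_left' hx, List.mem_cons, exists_eq_or_imp]
      by_cases c : G x
      · simp [c, sb]
      · simpa [c] using ih
    · rw [sb_mul, pow_add, pow_succ]
      refine (mul_le_mul_of_nonneg_left h (by positivity)).trans (le_of_eq (by ring))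

open Classical in
/-- amplification with a union bound -/
theorem bad_blocks {ι : Type} (J : Finset ι) {M : ℕ} {G : ι → List Bool → Prop} {p : ℝ}
    (hp : 0 ≤ p) (h : ∀ j ∈ J, (sb M fun l => if G j l then 0 else 1) ≤ 2 ^ M * p) (L : ℕ) :
    (bad (L * M) fun l => ∀ j ∈ J, ∃ b ∈ blocks M L l, G j b) ≤ J.card * p ^ L := by
  rw [bad_eq, div_le_iff₀ (by positivity)]
  refine le_trans (sb_mono (G := fun l => ∑ j ∈ J, if ∃ b ∈ blocks M L l, G j b then 0 else 1)
    fun l _ => ?_) ?_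
  · have h0 : ∀ j ∈ J, (0 : ℝ) ≤ if ∃ b ∈ blocks M L l, G j b then 0 else 1 := fun j _ => by
      split_ifs <;> simp
    split_ifs with c
    · exact sum_nonneg h0
    · obtain ⟨j, hj, k⟩ : ∃ j ∈ J, ¬∃ b ∈ blocks M L l, G j b := by simpa using c
      exact le_trans (by rw [if_neg k]) (single_le_sum h0 hj)
  · rw [sb_sum]
    refine (sum_le_sum fun j hj => sb_blocks hp (h j hj) L).trans (le_of_eq ?_)
    rw [sum_const, nsmul_eq_mul]; ring

end Crest.Agent.N325.Wk
private theorem rz_11ed124338 : type_of% @_root_.Crest.Agent.N325.Wk.blocks.eq_def := @_root_.Crest.Agent.N325.Wk.blocks.eq_def -- L115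
private theorem rz_90208c2be0 : type_of% @_root_.Crest.Agent.N325.Wk.blocks.eq_1 := @_root_.Crest.Agent.N325.Wk.blocks.eq_1 -- L115
private theorem rz_43a8c9c185 : type_of% @_root_.Crest.Agent.N325.Wk.pick.eq_def := @_root_.Crest.Agent.N325.Wk.pick.eq_def -- L77
private theorem rz_5f50f30454 : type_of% @_root_.Crest.Agent.N325.Wk.pick.eq_1 := @_root_.Crest.Agent.N325.Wk.pick.eq_1 -- L77
private theorem rz_cdc114dc7e : type_of% @_root_.Crest.Agent.N325.Wk.rd.eq_def := @_root_.Crest.Agent.N325.Wk.rd.eq_def -- L52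
private theorem rz_1e62d2f6ee : type_of% @_root_.Crest.Agent.N325.Wk.rd.eq_1 := @_root_.Crest.Agent.N325.Wk.rd.eq_1 -- L52
end

-- ▼ part N325/Wk/Occ
section

/-!
# Row 325 (helper79): occupation densities of the backward walk along an exact flow

`P v a` = flow from `a` into `v` (loops included), every state has throughput `Q`; `s a` is at most
the part of the throughput of `a` that goes to its sink.
-/

set_option autoImplicit false
open Finset

namespace Crest.Agent.N325.Wk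

/-- expected number of visits in the first `n` steps, divided by `Q` -/
noncomputable def oc (V : Finset ℕ) (P : ℕ → ℕ → ℝ) (Q : ℝ) (μ : ℕ → ℝ) : ℕ → ℕ → ℝ
  | 0, _ => 0
  | n + 1, a => (μ a + ∑ v ∈ V, P v a * oc V P Q μ n v) / Q

/-- the hypotheses on the chain -/
structure Ch (V : Finset ℕ) (P : ℕ → ℕ → ℝ) (Q : ℝ) (s : ℕ → ℝ) : Prop where
  pos : 0 < Q
  nn : ∀ v a, 0 ≤ P v a
  snn : ∀ a, 0 ≤ s a
  row : ∀ v ∈ V, ∑ a ∈ V, P v a ≤ Q
  col : ∀ a ∈ V, ∑ v ∈ V, P v a + s a ≤ Q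

variable {V : Finset ℕ} {P : ℕ → ℕ → ℝ} {Q θ : ℝ} {s μ : ℕ → ℝ}

theorem oc_first (n a : ℕ) : oc V P Q μ (n + 1) a =
    μ a / Q + oc V P Q (fun a => ∑ v ∈ V, P v a * (μ v / Q)) n a := by
  induction n generalizing a with
  | zero => simp [oc]
  | succ n ih =>
    rw [oc]
    simp only [ih]
    rw [oc]
    simp only [mul_add, sum_add_distrib]
    ring

theorem Ch.oc_nn (h : Ch V P Q s) (hμ : ∀ a, 0 ≤ μ a) (n a : ℕ) : 0 ≤ oc V P Q μ n a := by
  induction n generalizing a with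
  | zero => exact le_rfl
  | succ n ih =>
    exact div_nonneg (add_nonneg (hμ a) (sum_nonneg fun v _ => mul_nonneg (h.nn v a) (ih v)))
      h.pos.le

theorem Ch.oc_mono (h : Ch V P Q s) (hμ : ∀ a, 0 ≤ μ a) (n a : ℕ) :
    oc V P Q μ n a ≤ oc V P Q μ (n + 1) a := by
  induction n generalizing a with
  | zero => exact h.oc_nn hμ 1 a
  | succ n ih =>
    rw [oc, oc]
    exact div_le_div_of_nonneg_right (add_le_add_right
      (sum_le_sum fun v _ => mul_le_mul_of_nonneg_left (ih v) (h.nn v a)) _) h.pos.le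

/-- the maximum principle -/
theorem Ch.oc_le (h : Ch V P Q s) (hθ : 0 ≤ θ) (hμ : ∀ a ∈ V, μ a ≤ θ * s a) (n : ℕ) :
    ∀ a ∈ V, oc V P Q μ n a ≤ θ := by
  induction n with
  | zero => exact fun _ _ => hθ
  | succ n ih =>
    intro a ha
    rw [oc, div_le_iff₀ h.pos]
    have h1 : ∑ v ∈ V, P v a * oc V P Q μ n v ≤ (∑ v ∈ V, P v a) * θ := by
      rw [sum_mul]; exact sum_le_sum fun v hv => mul_le_mul_of_nonneg_left (ih v hv) (h.nn v a)
    have h2 := mul_le_mul_of_nonneg_left (h.col a ha) hθ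
    have := hμ a ha
    nlinarith

/-- costs: first-step recursion against occupation densities -/
theorem Ch.cost_le (h : Ch V P Q s) {E : ℕ → ℕ → ℝ} {C : ℕ → ℝ} (h0 : ∀ v ∈ V, E 0 v ≤ 0)
    (hE : ∀ n, ∀ v ∈ V, E (n + 1) v ≤ (C v + ∑ a ∈ V, P v a * E n a) / Q) (n : ℕ)
    (hμ : ∀ a, 0 ≤ μ a) : ∑ u ∈ V, μ u * E n u ≤ ∑ v ∈ V, oc V P Q μ n v * C v := by
  induction n generalizing μ with
  | zero =>
    simp only [oc, zero_mul, sum_const_zero]
    exact sum_nonpos fun u hu => mul_nonpos_of_nonneg_of_nonpos (hμ u) (h0 u hu)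
  | succ n ih =>
    have h1 := ih (μ := fun a => ∑ v ∈ V, P v a * (μ v / Q)) fun a =>
      sum_nonneg fun v _ => mul_nonneg (h.nn v a) (div_nonneg (hμ v) h.pos.le)
    simp only [oc_first, add_mul, sum_add_distrib]
    refine le_trans (sum_le_sum fun u hu => mul_le_mul_of_nonneg_left (hE n u hu) (hμ u)) ?_
    refine le_trans (le_of_eq ?_) (add_le_add_right h1 _)
    simp only [sum_mul]
    rw [sum_comm, ← sum_add_distrib]
    refine sum_congr rfl fun u _ => ?_
    rw [add_div, mul_add, sum_div, mul_sum]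
    congr 1
    · ring
    · exact sum_congr rfl fun a _ => by ring

/-- the convex function of the entropy argument -/
noncomputable def ps (y : ℝ) : ℝ := (1 + y) * Real.log (1 + y) - y

theorem ps_tan {y z : ℝ} (hy : 0 ≤ y) (hz : 0 ≤ z) :
    ps y + Real.log (1 + y) * (z - y) ≤ ps z := by
  have h1 : 0 < 1 + y := by linarith
  have h2 : 0 < 1 + z := by linarith
  have h3 := Real.one_sub_inv_le_log_of_pos (div_pos h2 h1)
  rw [Real.log_div h2.ne' h1.ne', inv_div] at h3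
  have h4 := mul_le_mul_of_nonneg_left h3 h2.le
  rw [mul_sub, mul_div_cancel₀ _ h2.ne'] at h4
  unfold ps
  nlinarith

theorem ps_mono {y z : ℝ} (hy : 0 ≤ y) (h : y ≤ z) : ps y ≤ ps z := by
  have := ps_tan hy (hy.trans h)
  have h2 : 0 ≤ Real.log (1 + y) := Real.log_nonneg (by linarith)
  nlinarith [mul_nonneg h2 (sub_nonneg.2 h)]

theorem ps_nn {y : ℝ} (hy : 0 ≤ y) : 0 ≤ ps y := by
  simpa [ps] using ps_mono le_rfl hy

/-- **the entropy bound**: the expected sum of `s / Q` along the walk is logarithmic -/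
theorem Ch.sum_oc (h : Ch V P Q s) (hθ : 0 ≤ θ) (hμ0 : ∀ a, 0 ≤ μ a)
    (hμ : ∀ a ∈ V, μ a ≤ θ * s a) (h1 : ∑ a ∈ V, μ a ≤ 1) (n : ℕ) :
    ∑ a ∈ V, s a * oc V P Q μ n a ≤ 2 * Real.log (1 + V.card * Q * θ) := by
  have hQ := h.pos
  have hL : 0 ≤ Real.log (1 + V.card * Q * θ) :=
    Real.log_nonneg (by have : 0 ≤ V.card * Q * θ := by positivity
                        linarith)
  cases n with
  | zero => simpa [oc] using hL
  | succ n =>
    rcases V.eq_empty_or_nonempty with rfl | hV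
    · simp
    set S : ℝ := V.card * Q with hS
    have hS0 : 0 < S := mul_pos (Nat.cast_pos.2 hV.card_pos) hQ
    set L := Real.log (1 + S * θ)
    set Y := fun a => S * oc V P Q μ (n + 1) a with hY
    set Z := fun a => S * oc V P Q μ n a with hZ
    have Y0 : ∀ a, 0 ≤ Y a := fun a => mul_nonneg hS0.le (h.oc_nn hμ0 _ a)
    have Z0 : ∀ a, 0 ≤ Z a := fun a => mul_nonneg hS0.le (h.oc_nn hμ0 _ a)
    have ZY : ∀ a, Z a ≤ Y a := fun a => mul_le_mul_of_nonneg_left (h.oc_mono hμ0 n a) hS0.le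
    have key : ∀ a ∈ V, s a * Y a ≤
        ∑ v ∈ V, P v a * ps (Z v) - Q * ps (Y a) + (S * μ a + Q) * L := by
      intro a ha
      have l0 : 0 ≤ Real.log (1 + Y a) := Real.log_nonneg (by linarith [Y0 a])
      have l1 : Real.log (1 + Y a) ≤ L := Real.log_le_log (by linarith [Y0 a])
        (add_le_add_right (mul_le_mul_of_nonneg_left (h.oc_le hθ hμ _ a ha) hS0.le) _)
      have e1 : Q * Y a = S * μ a + ∑ v ∈ V, P v a * Z v := by
        simp only [hY, hZ, oc]
        rw [mul_left_comm, mul_div_cancel₀ _ hQ.ne', mul_add, mul_sum]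
        exact congrArg _ (sum_congr rfl fun v _ => by ring)
      have e2 : ∑ v ∈ V, P v a * (ps (Y a) + Real.log (1 + Y a) * (Z v - Y a)) ≤
          ∑ v ∈ V, P v a * ps (Z v) :=
        sum_le_sum fun v _ => mul_le_mul_of_nonneg_left (ps_tan (Y0 a) (Z0 v)) (h.nn v a)
      have e3 : ∑ v ∈ V, P v a * (ps (Y a) + Real.log (1 + Y a) * (Z v - Y a)) =
          (∑ v ∈ V, P v a) * (ps (Y a) - Real.log (1 + Y a) * Y a) +
            Real.log (1 + Y a) * ∑ v ∈ V, P v a * Z v := by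
        rw [sum_mul, mul_sum, ← sum_add_distrib]
        exact sum_congr rfl fun v _ => by ring
      have o0 : 0 ≤ ∑ v ∈ V, P v a := sum_nonneg fun v _ => h.nn v a
      have c := h.col a ha
      have m0 := mul_nonneg hS0.le (hμ0 a)
      generalize ∑ v ∈ V, P v a = o at *
      have e4 : ps (Y a) = (1 + Y a) * Real.log (1 + Y a) - Y a := rfl
      generalize Real.log (1 + Y a) = l at *
      have e5 : (Q - o) * (Y a - l) ≤ ∑ v ∈ V, P v a * ps (Z v) - Q * ps (Y a) + S * μ a * l := by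
        rw [e3, show ∑ v ∈ V, P v a * Z v = Q * Y a - S * μ a by linarith, e4] at e2
        rw [e4]; nlinarith
      nlinarith [mul_le_mul_of_nonneg_right (show s a ≤ Q - o by linarith) (Y0 a),
        mul_le_mul_of_nonneg_left l1 m0, mul_le_mul_of_nonneg_left l1 hQ.le, mul_nonneg o0 l0]
    have k1 := sum_le_sum key
    rw [sum_add_distrib, sum_sub_distrib, sum_comm, ← sum_mul, sum_add_distrib, ← mul_sum,
      ← mul_sum, sum_const, nsmul_eq_mul, ← hS] at k1
    have k2 : ∑ v ∈ V, ∑ a ∈ V, P v a * ps (Z v) ≤ Q * ∑ a ∈ V, ps (Y a) := by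
      rw [mul_sum]
      refine sum_le_sum fun v hv => ?_
      rw [← sum_mul]
      exact mul_le_mul (h.row v hv) (ps_mono (Z0 v) (ZY v)) (ps_nn (Z0 v)) hQ.le
    have k3 : ∑ a ∈ V, s a * Y a = S * ∑ a ∈ V, s a * oc V P Q μ (n + 1) a := by
      rw [mul_sum]; exact sum_congr rfl fun a _ => by simp only [hY]; ring
    have k4 := mul_le_mul_of_nonneg_right (mul_le_mul_of_nonneg_left h1 hS0.le) hL
    refine le_of_mul_le_mul_left ?_ hS0
    nlinarith

end Crest.Agent.N325.Wk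
private theorem rz_a888fc72e2 : type_of% @_root_.Crest.Agent.N325.Wk.oc.eq_def := @_root_.Crest.Agent.N325.Wk.oc.eq_def -- L16
private theorem rz_80f85719bc : type_of% @_root_.Crest.Agent.N325.Wk.oc.eq_1 := @_root_.Crest.Agent.N325.Wk.oc.eq_1 -- L16
end

-- ▼ part N325/Wk/Prob
section

/-!
# Row 325 (helper79): the backward walk and its failure probability

States are numbers; `inl v` lists the (flow, item) pairs entering `v`; `hd x` is the state at the
other end of the item (`none`: a source); `gh x`: forbidden items (ghosts, a forbidden root).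
-/

set_option autoImplicit false
open Finset

namespace Crest.Agent.N325.Wk

variable {α : Type}

/-- state of a walk: position, budget, bits, trace (latest first), flag (0 alive, 1 success) -/
structure WS (α : Type) where
  v : ℕ
  b : ℕ
  l : List Bool
  acc : List (ℕ × α)
  fl : ℕ

/-- the move after the selection -/
def mv (hd : α → Option ℕ) (gh : α → Bool) (wv : ℕ) (o : Option α) (l : List Bool) (s : WS α) :
    WS α :=
  match o with
  | none => ⟨s.v, s.b - wv, l, s.acc, 0⟩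
  | some x => if gh x then ⟨s.v, s.b - wv, l, s.acc, 2⟩ else
    match hd x with
    | none => ⟨s.v, s.b - wv, l, (s.v, x) :: s.acc, 1⟩
    | some a => ⟨a, s.b - wv, l, (s.v, x) :: s.acc, 0⟩

/-- one step -/
def step (inl : ℕ → List (ℕ × α)) (hd : α → Option ℕ) (gh : α → Bool) (w : ℕ → ℕ) (K : ℕ)
    (s : WS α) : WS α :=
  if s.fl ≠ 0 then s else if s.b < w s.v then ⟨s.v, s.b, s.l, s.acc, 2⟩ else
    mv hd gh (w s.v) (pick (rd K (0, s.l)).1 (inl s.v)) (rd K (0, s.l)).2 s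

/-- the start -/
def ini (bud : ℕ) (o : Option ℕ) (l : List Bool) : WS α :=
  match o with
  | none => ⟨0, bud, l, [], 2⟩
  | some x => ⟨x, bud, l, [], 0⟩

/-- a whole walk -/
def walk (inl : ℕ → List (ℕ × α)) (hd : α → Option ℕ) (gh : α → Bool) (w : ℕ → ℕ)
    (K K0 bud : ℕ) (st : List (ℕ × ℕ)) (l : List Bool) : WS α :=
  (step inl hd gh w K)^[bud + 1] (ini bud (pick (rd K0 (0, l)).1 st) (rd K0 (0, l)).2)

/-- the flow from `a` into `v` -/
def out (inl : ℕ → List (ℕ × α)) (hd : α → Option ℕ) (v a : ℕ) : ℕ :=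
  ((inl v).map fun y => if hd y.2 = some a then y.1 else 0).sum

/-- the forbidden flow into `v` -/
def gf (inl : ℕ → List (ℕ × α)) (gh : α → Bool) (v : ℕ) : ℕ :=
  ((inl v).map fun y => if gh y.2 then y.1 else 0).sum

/-- **the network**: closed, throughput at most `2 ^ K`, conservation with sinks `s` -/
structure Net (V : Finset ℕ) (inl : ℕ → List (ℕ × α)) (hd : α → Option ℕ) (K : ℕ) (s w : ℕ → ℕ) :
    Prop where
  cl : ∀ v ∈ V, ∀ y ∈ inl v, ∀ a, hd y.2 = some a → a ∈ V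
  cap : ∀ v ∈ V, tw (inl v) ≤ 2 ^ K
  cons : ∀ a ∈ V, ∑ v ∈ V, out inl hd v a + s a ≤ tw (inl a)
  wpos : ∀ v ∈ V, 1 ≤ w v

/-- **the start list**: entries `(amount, state)` -/
structure Start (V : Finset ℕ) (s : ℕ → ℕ) (K0 : ℕ) (st : List (ℕ × ℕ)) : Prop where
  mem : ∀ y ∈ st, y.2 ∈ V
  le : ∀ a ∈ V, (st.map fun y => if y.2 = a then y.1 else 0).sum ≤ s a
  tot : 2 ^ K0 ≤ tw st

/-- the next state of the unbudgeted chain -/
def nx (inl : ℕ → List (ℕ × α)) (hd : α → Option ℕ) (v r : ℕ) : Option ℕ :=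
  (pick r (inl v)).elim (some v) hd

/-- the accumulated cost -/
noncomputable def tot (f : ℕ → ℕ → Option ℕ) (c : ℕ → ℕ → ℝ) (K : ℕ) : ℕ → ℕ → List Bool → ℝ
  | 0, _, _ => 0
  | n + 1, v, l => c v (rd K (0, l)).1 +
      (f v (rd K (0, l)).1).elim 0 fun a => tot f c K n a (rd K (0, l)).2

theorem tot_nn {f : ℕ → ℕ → Option ℕ} {c : ℕ → ℕ → ℝ} (hc : ∀ v r, 0 ≤ c v r) (K n v : ℕ)
    (l : List Bool) : 0 ≤ tot f c K n v l := by
  induction n generalizing v l with
  | zero => exact le_rfl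
  | succ n ih =>
    refine add_nonneg (hc _ _) ?_
    cases f v (rd K (0, l)).1 with
    | none => exact le_rfl
    | some a => exact ih _ _

variable {V : Finset ℕ} {inl : ℕ → List (ℕ × α)} {hd : α → Option ℕ} {gh : α → Bool}
  {K K0 bud : ℕ} {s w : ℕ → ℕ} {st : List (ℕ × ℕ)} {F : Finset ℕ}

/-- the cost of a step -/
noncomputable def cst (inl : ℕ → List (ℕ × α)) (gh : α → Bool) (w : ℕ → ℕ) (F : Finset ℕ)
    (bud v r : ℕ) : ℝ :=
  (if v ∈ F then 1 else 0) +
    (w v / (bud + 1) + (pick r (inl v)).elim 0 fun x => if gh x then 1 else 0)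

/-- success, avoiding the states in `F` -/
def Won (F : Finset ℕ) (z : WS α) : Prop := z.fl = 1 ∧ ∀ y ∈ z.acc, y.1 ∉ F

theorem ind_nn (o : Option α) : (0 : ℝ) ≤ o.elim 0 fun x => if gh x then 1 else 0 := by
  cases o with
  | none => exact le_rfl
  | some x => dsimp only [Option.elim]; split_ifs <;> simp

theorem cst_nn (v r : ℕ) : 0 ≤ cst inl gh w F bud v r :=
  add_nonneg (by split_ifs <;> simp) (add_nonneg (by positivity) (ind_nn _))

theorem iter_done {z : WS α} (h : z.fl ≠ 0) (n : ℕ) : (step inl hd gh w K)^[n] z = z :=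
  Function.iterate_fixed (by rw [step, if_pos h]) n

theorem Net.fail (N : Net V inl hd K s w) (n : ℕ) (z : WS α) (h0 : z.fl = 0) (hv : z.v ∈ V)
    (hb : z.b ≤ bud) (hn : z.b < n) (hF : ∀ y ∈ z.acc, y.1 ∉ F)
    (h : ¬Won F ((step inl hd gh w K)^[n] z)) :
    ((z.b : ℝ) + 1) / (bud + 1) ≤ tot (nx inl hd) (cst inl gh w F bud) K n z.v z.l := by
  induction n generalizing z with
  | zero => omega
  | succ n ih =>
    have hw := N.wpos _ hv
    have hB : (0 : ℝ) < bud + 1 := by positivity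
    have t0 : (0 : ℝ) ≤ (nx inl hd z.v (rd K (0, z.l)).1).elim 0 fun a =>
        tot (nx inl hd) (cst inl gh w F bud) K n a (rd K (0, z.l)).2 := by
      cases nx inl hd z.v (rd K (0, z.l)).1 with
      | none => exact le_rfl
      | some a => exact tot_nn cst_nn _ _ _ _
    rw [Function.iterate_succ_apply, step, if_neg (by omega)] at h
    have b1 : ((z.b : ℝ) + 1) / (bud + 1) ≤ 1 := by
      rw [div_le_one hB]; exact_mod_cast Nat.succ_le_succ hb
    rw [tot, cst]
    by_cases f : z.v ∈ F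
    · rw [if_pos f]
      exact le_add_of_le_of_nonneg (le_add_of_le_of_nonneg b1
        (add_nonneg (by positivity) (ind_nn _))) t0
    rw [if_neg f, zero_add]
    have hF' : ∀ x, ∀ y ∈ (z.v, x) :: z.acc, y.1 ∉ F := fun x => by simpa [f] using hF
    by_cases c : z.b < w z.v
    · refine le_add_of_le_of_nonneg (le_add_of_le_of_nonneg ?_ (ind_nn _)) t0
      exact div_le_div_of_nonneg_right (by exact_mod_cast c) hB.le
    rw [if_neg c] at h
    have e : ((z.b : ℝ) + 1) / (bud + 1) =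
        w z.v / (bud + 1) + 0 + (((z.b - w z.v : ℕ) : ℝ) + 1) / (bud + 1) := by
      rw [Nat.cast_sub (by omega)]; ring
    rw [nx] at *
    cases ho : pick (rd K (0, z.l)).1 (inl z.v) with
    | none =>
      rw [ho] at h
      rw [e]
      exact add_le_add_right (ih ⟨z.v, z.b - w z.v, (rd K (0, z.l)).2, z.acc, 0⟩ rfl hv
        (by dsimp only; omega) (by dsimp only; omega) hF h) _
    | some x =>
      rw [ho] at h t0
      dsimp only [Option.elim, mv] at h t0 ⊢
      by_cases g : gh x = true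
      · rw [if_pos g]
        exact le_add_of_le_of_nonneg (le_add_of_nonneg_of_le (by positivity) b1) t0
      rw [if_neg g] at h ⊢
      cases hx : hd x with
      | none => rw [hx, iter_done (by simp)] at h; exact absurd ⟨rfl, hF' x⟩ h
      | some a =>
        rw [hx] at h
        obtain ⟨f, -, hf⟩ := pick_mem ho
        rw [e]
        exact add_le_add_right (ih _ rfl (N.cl _ hv _ hf a hx) (by dsimp only; omega)
          (by dsimp only; omega) (hF' x) h) _

/-- the transition counts -/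
noncomputable def tr (f : ℕ → Option ℕ) (K a : ℕ) : ℝ :=
  ∑ r ∈ range (2 ^ K), if f r = some a then 1 else 0

theorem tr_nn (f : ℕ → Option ℕ) (K a : ℕ) : 0 ≤ tr f K a :=
  sum_nonneg fun _ _ => by split_ifs <;> simp

theorem sum_tr (f : ℕ → Option ℕ) (hf : ∀ r < 2 ^ K, ∀ a, f r = some a → a ∈ V) (E : ℕ → ℝ) :
    ∑ a ∈ V, tr f K a * E a = ∑ r ∈ range (2 ^ K), (f r).elim 0 E := by
  simp only [tr, sum_mul]
  rw [sum_comm]
  refine sum_congr rfl fun r hr => ?_
  cases e : f r with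
  | none => simp
  | some b => simp [hf r (mem_range.1 hr) b e]

theorem sum_tr_le (f : ℕ → Option ℕ) : ∑ a ∈ V, tr f K a ≤ 2 ^ K := by
  simp only [tr]
  rw [sum_comm]
  refine (sum_le_sum (g := fun _ => (1 : ℝ)) fun r _ => ?_).trans (by simp)
  cases f r with
  | none => simp
  | some b => simp only [Option.some.injEq, sum_ite_eq]; split_ifs <;> simp

theorem cast_ite_sum {β : Type} (l : List (ℕ × β)) (p : β → Prop) [DecidablePred p] :
    (l.map fun x => (x.1 : ℝ) * if p x.2 then 1 else 0).sum =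
      ((l.map fun y => if p y.2 then y.1 else 0).sum : ℕ) := by
  rw [Nat.cast_list_sum, List.map_map]
  exact congrArg _ (List.map_congr_left fun x _ => by simp)

theorem Net.nx_mem (N : Net V inl hd K s w) {v : ℕ} (hv : v ∈ V) (r a : ℕ)
    (h : nx inl hd v r = some a) : a ∈ V := by
  unfold nx at h
  cases ho : pick r (inl v) with
  | none => rw [ho] at h; cases h; exact hv
  | some x => rw [ho] at h; obtain ⟨f, -, hf⟩ := pick_mem ho; exact N.cl _ hv _ hf a h

theorem Net.ch (N : Net V inl hd K s w) :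
    Ch V (fun v => tr (nx inl hd v) K) (2 ^ K) fun a => s a := by
  refine ⟨by positivity, fun v a => tr_nn _ _ _, fun a => by positivity, fun v _ => sum_tr_le _,
    fun a ha => ?_⟩
  have h1 : ∀ v ∈ V, tr (nx inl hd v) K a ≤ out inl hd v a +
      if v = a then ((2 ^ K - tw (inl a) : ℕ) : ℝ) else 0 := fun v _ => by
    refine (sum_pick_le (fun o => if o.elim (some v) hd = some a then 1 else 0)
      (fun o => by split_ifs <;> simp) (inl v) (2 ^ K)).trans (le_of_eq ?_)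
    rw [show (fun x : ℕ × α => (x.1 : ℝ) * if (some x.2).elim (some v) hd = some a then 1 else 0) =
      fun x => (x.1 : ℝ) * if hd x.2 = some a then 1 else 0 from rfl,
      cast_ite_sum (inl v) fun x => hd x = some a, out]
    by_cases c : v = a <;> simp [c]
  have h2 := sum_le_sum h1
  rw [sum_add_distrib, sum_ite_eq', if_pos ha, Nat.cast_sub (N.cap a ha)] at h2
  have h3 : ((∑ v ∈ V, out inl hd v a + s a : ℕ) : ℝ) ≤ tw (inl a) := by exact_mod_cast N.cons a ha
  push_cast at h2 h3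
  linarith

theorem pick_ne_none {β : Type} {r : ℕ} {l : List (ℕ × β)} (h : r < tw l) : pick r l ≠ none := by
  induction l generalizing r with
  | nil => simp [tw] at h
  | cons x l ih =>
    rw [pick]
    split_ifs with c
    · simp
    · exact ih (by simp only [tw, List.map_cons, List.sum_cons] at h ⊢; omega)

open Classical in
/-- **one walk fails with probability at most `p`** -/
theorem Net.walk_fail (N : Net V inl hd K s w) (S : Start V s K0 st) {κ ε Ex A p : ℝ}
    {ex a : ℕ → ℝ} {lg : ℕ} (hκ : 0 ≤ κ) (hε : 0 ≤ ε) (hex0 : ∀ v ∈ V, 0 ≤ ex v)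
    (ha0 : ∀ v ∈ V, 0 ≤ a v) (hw : ∀ v ∈ V, (w v : ℝ) ≤ κ * s v + ex v)
    (hg : ∀ v ∈ V, (gf inl gh v : ℝ) ≤ ε * s v + a v) (hex : ∑ v ∈ V, ex v ≤ Ex)
    (ha : ∑ v ∈ V, a v ≤ A) (hlg : 1 + V.card * 2 ^ K ≤ 2 ^ lg)
    (hp : 2 * lg * (2 ^ K * κ / (bud + 1) + ε) +
      (2 ^ K * Ex / (bud + 1) + A + 2 ^ K * F.card) / 2 ^ K0 ≤ p) :
    (sb (K0 + (bud + 1) * K) fun l => if Won F (walk inl hd gh w K K0 bud st l) then 0 else 1) ≤
      2 ^ (K0 + (bud + 1) * K) * p := by
  set c := cst inl gh w F bud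
  set E : ℕ → ℕ → ℝ := fun n v => sb (n * K) (tot (nx inl hd) c K n v) / 2 ^ (n * K) with hE
  set μ : ℕ → ℝ := fun x => tr (fun r => pick r st) K0 x / 2 ^ K0 with hμ
  have μ0 : ∀ x, 0 ≤ μ x := fun x => div_nonneg (tr_nn _ _ _) (by positivity)
  have μ1 : ∀ x ∈ V, μ x ≤ 1 / 2 ^ K0 * s x := fun x hx => by
    rw [one_div_mul_eq_div]
    refine div_le_div_of_nonneg_right ((sum_pick_le (fun o => if o = some x then 1 else 0)
      (fun o => by split_ifs <;> simp) st (2 ^ K0)).trans ?_) (by positivity)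
    simp only [Option.some.injEq, reduceCtorEq, if_false, mul_zero, add_zero]
    rw [cast_ite_sum st fun y => y = x]
    exact_mod_cast S.le x hx
  have μ2 : ∑ x ∈ V, μ x ≤ 1 := by
    rw [← sum_div, div_le_one (by positivity)]; exact sum_tr_le _
  have h1 := N.ch.cost_le (E := E) (C := fun v => ∑ r ∈ range (2 ^ K), c v r)
    (fun v _ => by simp [hE, sb_zero, tot]) (fun n v hv => le_of_eq ?_) (bud + 1) μ0
  swap
  · rw [sum_tr _ fun r _ b => N.nx_mem hv r b, ← sum_add_distrib]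
    simp only [hE]
    rw [show (n + 1) * K = K + n * K by ring]
    rw [show sb (K + n * K) (tot (nx inl hd) c K (n + 1) v) = _ from
      sb_rd K (n * K) 0 fun z : ℕ × List Bool => c v z.1 +
        (nx inl hd v z.1).elim 0 fun a => tot (nx inl hd) c K n a z.2,
      pow_add, mul_comm ((2 : ℝ) ^ K), ← div_div, sum_div]
    congr 1
    refine sum_congr rfl fun r _ => ?_
    simp only [zero_mul, zero_add]
    rw [sb_add', sb_const, add_div, mul_div_cancel_left₀ _ (by positivity)]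
    congr 1
    cases nx inl hd v r with
    | none => simp [sb]
    | some b => rfl
  have h2 := N.ch.sum_oc (by positivity) μ0 μ1 μ2 (bud + 1)
  have h3 := N.ch.oc_le (by positivity) μ1 (bud + 1)
  have h4 := N.ch.oc_nn μ0 (bud + 1)
  generalize oc V (fun v => tr (nx inl hd v) K) (2 ^ K) μ (bud + 1) = H at h1 h2 h3 h4
  have hB : (0 : ℝ) < bud + 1 := by positivity
  have h5 : ∀ v ∈ V, H v * ∑ r ∈ range (2 ^ K), c v r ≤
      (2 ^ K * κ / (bud + 1) + ε) * (s v * H v) +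
        (2 ^ K / (bud + 1) * ex v + a v + 2 ^ K * if v ∈ F then 1 else 0) * (1 / 2 ^ K0) :=
      fun v hv => by
    have k1 := sum_pick_le (fun o => o.elim 0 fun x => if gh x then (1 : ℝ) else 0) ind_nn (inl v)
      (2 ^ K)
    simp only [Option.elim, mul_zero, add_zero] at k1
    rw [cast_ite_sum (inl v) fun x => gh x = true] at k1
    have k2 : ∑ r ∈ range (2 ^ K), c v r ≤ (2 ^ K * if v ∈ F then 1 else 0) +
        (2 ^ K / (bud + 1) * (κ * s v + ex v) + (ε * s v + a v)) := by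
      simp only [c, cst, sum_add_distrib, sum_const, card_range, nsmul_eq_mul]
      push_cast
      refine add_le_add_right (add_le_add ?_ (k1.trans (hg v hv))) _
      rw [div_mul_eq_mul_div, mul_div_assoc]
      have := hw v hv
      gcongr
    refine (mul_le_mul_of_nonneg_left k2 (h4 v)).trans ?_
    have k3 : 0 ≤ 2 ^ K / ((bud : ℝ) + 1) * ex v + a v + 2 ^ K * if v ∈ F then 1 else 0 :=
      add_nonneg (add_nonneg (mul_nonneg (by positivity) (hex0 v hv)) (ha0 v hv))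
        (by split_ifs <;> simp)
    have := mul_le_mul_of_nonneg_left (h3 v hv) k3
    refine le_trans (le_of_eq ?_) (add_le_add_right this _)
    ring
  have h6 := h1.trans (sum_le_sum h5)
  rw [sum_add_distrib, ← mul_sum, ← sum_mul, sum_add_distrib, sum_add_distrib, ← mul_sum,
    ← mul_sum] at h6
  have hF : ∑ v ∈ V, (if v ∈ F then (1 : ℝ) else 0) ≤ F.card := by
    rw [sum_boole, filter_mem_eq_inter]; exact_mod_cast card_le_card inter_subset_right
  have h7 : Real.log (1 + V.card * 2 ^ K * (1 / 2 ^ K0)) ≤ lg := by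
    have k1 : (1 : ℝ) / 2 ^ K0 ≤ 1 := by rw [div_le_one (by positivity)]; exact one_le_pow₀ one_le_two
    have k2 : (1 : ℝ) + V.card * 2 ^ K ≤ 2 ^ lg := by exact_mod_cast hlg
    refine (Real.log_le_log (y := 2 ^ lg) (by positivity) ?_).trans ?_
    · nlinarith [mul_le_mul_of_nonneg_left k1 (show (0 : ℝ) ≤ V.card * 2 ^ K by positivity)]
    · rw [Real.log_pow]
      nlinarith [Real.log_two_lt_d9, (Nat.cast_nonneg lg : (0 : ℝ) ≤ lg)]
  have h8 : ∑ u ∈ V, μ u * E (bud + 1) u ≤ p := by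
    refine h6.trans (le_trans (add_le_add ?_ ?_) hp)
    · rw [mul_comm (2 * (lg : ℝ))]
      exact mul_le_mul_of_nonneg_left (by linarith) (by positivity)
    · rw [mul_one_div, ← div_mul_eq_mul_div]
      gcongr
  refine (sb_rd K0 ((bud + 1) * K) 0 fun z : ℕ × List Bool =>
    if Won F ((step inl hd gh w K)^[bud + 1] (ini bud (pick z.1 st) z.2))
      then (0 : ℝ) else 1).trans_le ?_
  have h9 : ∑ u ∈ V, μ u * E (bud + 1) u = (∑ r ∈ range (2 ^ K0), (pick r st).elim 0 fun u =>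
      sb ((bud + 1) * K) (tot (nx inl hd) c K (bud + 1) u)) / 2 ^ (K0 + (bud + 1) * K) := by
    rw [← sum_tr (V := V) _ fun r _ b e => by
      obtain ⟨f, -, hf⟩ := pick_mem e; exact S.mem _ hf, sum_div]
    exact sum_congr rfl fun u _ => by simp only [hμ, hE]; rw [pow_add, div_mul_div_comm]
  rw [h9, div_le_iff₀' (by positivity)] at h8
  refine le_trans (sum_le_sum fun r hr => ?_) h8
  simp only [zero_mul, zero_add]
  cases ho : pick r st with
  | none => exact absurd ho (pick_ne_none ((mem_range.1 hr).trans_le S.tot))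
  | some x =>
    obtain ⟨f, -, hf⟩ := pick_mem ho
    refine sb_mono fun l _ => ?_
    split_ifs with k
    · exact tot_nn cst_nn _ _ _ _
    · have := N.fail (bud := bud) (bud + 1) (ini bud (some x) l) rfl (S.mem _ hf) le_rfl
        (Nat.lt_succ_self _) (by simp [ini]) k
      rwa [show (ini bud (some x) l : WS α).b = bud from rfl, div_self hB.ne'] at this

end Crest.Agent.N325.Wk
private theorem rz_4c9166116c : type_of% @_root_.Crest.Agent.N325.Wk.ini.eq_1 := @_root_.Crest.Agent.N325.Wk.ini.eq_1 -- L43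
private theorem rz_39f63ded1e : type_of% @_root_.Crest.Agent.N325.Wk.tot.eq_def := @_root_.Crest.Agent.N325.Wk.tot.eq_def -- L80
private theorem rz_6a0b815636 : type_of% @_root_.Crest.Agent.N325.Wk.tot.eq_1 := @_root_.Crest.Agent.N325.Wk.tot.eq_1 -- L80
end

-- ▼ part N325/Wk/Path
section

/-!
# Row 325 (helper79): traces of the backward walk, loop erasure
-/

set_option autoImplicit false
open Finset

namespace Crest.Agent.N325.Wk

variable {α : Type}

/-- **backward paths** `[(v₀,x₀),…,(v_k,x_k)]`: `xᵢ` enters `vᵢ` with positive flow, is allowed,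
comes from `vᵢ₊₁`; the last item comes from a source -/
inductive Pth (inl : ℕ → List (ℕ × α)) (hd : α → Option ℕ) (gh : α → Bool) :
    Option ℕ → List (ℕ × α) → Prop
  | nil : Pth inl hd gh none []
  | cons {v f : ℕ} {x : α} {P : List (ℕ × α)} : 0 < f → (f, x) ∈ inl v → gh x = false →
      Pth inl hd gh (hd x) P → Pth inl hd gh (some v) ((v, x) :: P)

/-- traces (latest first) from `x0` -/
inductive Tr (inl : ℕ → List (ℕ × α)) (hd : α → Option ℕ) (gh : α → Bool) (x0 : ℕ) :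
    List (ℕ × α) → Option ℕ → Prop
  | nil : Tr inl hd gh x0 [] (some x0)
  | cons {v f : ℕ} {x : α} {acc : List (ℕ × α)} : 0 < f → (f, x) ∈ inl v → gh x = false →
      Tr inl hd gh x0 acc (some v) → Tr inl hd gh x0 ((v, x) :: acc) (hd x)

/-- the weight of a path -/
def wt (w : ℕ → ℕ) (P : List (ℕ × α)) : ℕ := (P.map fun y => w y.1).sum

/-- **stems**: simple light backward paths from a state of the start list to a source -/
structure Stem (V : Finset ℕ) (inl : ℕ → List (ℕ × α)) (hd : α → Option ℕ) (gh : α → Bool)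
    (w : ℕ → ℕ) (bud : ℕ) (st : List (ℕ × ℕ)) (P : List (ℕ × α)) : Prop where
  pth : ∃ y ∈ st, Pth inl hd gh (some y.2) P
  nd : (P.map Prod.fst).Nodup
  mem : ∀ y ∈ P, y.1 ∈ V
  wt : wt w P ≤ bud

/-- one step of the loop erasure -/
def er1 (y : ℕ × α) (s : List (ℕ × α) × Arr (List (ℕ × α))) :
    List (ℕ × α) × Arr (List (ℕ × α)) :=
  if s.2.get y.1 = [] then (y :: s.1, s.2.set y.1 (y :: s.1)) else (s.2.get y.1, s.2)

variable {V : Finset ℕ} {inl inl' : ℕ → List (ℕ × α)} {hd : α → Option ℕ} {gh : α → Bool}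
  {K K0 bud x0 : ℕ} {s w : ℕ → ℕ} {st : List (ℕ × ℕ)}

theorem Pth.ne {v : ℕ} {P : List (ℕ × α)} (h : Pth inl hd gh (some v) P) : P ≠ [] := by
  cases h; simp

/-- a good stored path -/
def Ok (V : Finset ℕ) (inl : ℕ → List (ℕ × α)) (hd : α → Option ℕ) (gh : α → Bool) (w : ℕ → ℕ)
    (n : ℕ) (T : Arr (List (ℕ × α))) (c : Option ℕ) (P : List (ℕ × α)) : Prop :=
  Pth inl hd gh c P ∧ (P.map Prod.fst).Nodup ∧ (∀ y ∈ P, y.1 ∈ V ∧ T.get y.1 ≠ []) ∧ wt w P ≤ n

theorem erase {acc : List (ℕ × α)} {c : Option ℕ} (h : Tr inl hd gh x0 acc c)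
    (hV : ∀ y ∈ acc, y.1 ∈ V) {n : ℕ} {z : List (ℕ × α) × Arr (List (ℕ × α))}
    (h1 : Ok V inl hd gh w n z.2 c z.1)
    (h2 : ∀ v, z.2.get v ≠ [] → Ok V inl hd gh w n z.2 (some v) (z.2.get v)) :
    ∃ T, Ok V inl hd gh w (n + wt w acc) T (some x0) (acc.foldl (fun s y => er1 y s) z).1 := by
  induction h generalizing n z with
  | nil => exact ⟨z.2, h1⟩
  | @cons v f x acc a b c _ ih =>
    rw [List.foldl_cons, show n + wt w ((v, x) :: acc) = n + w v + wt w acc by
      simp only [wt, List.map_cons, List.sum_cons]; omega]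
    have hV' : ∀ y ∈ acc, y.1 ∈ V := fun y k => hV y (List.mem_cons_of_mem _ k)
    have up : ∀ {T c P}, Ok V inl hd gh w n T c P → Ok V inl hd gh w (n + w v) T c P :=
      fun k => ⟨k.1, k.2.1, k.2.2.1, k.2.2.2.trans (Nat.le_add_right _ _)⟩
    unfold er1
    split_ifs with e
    · have st : ∀ {c P}, Ok V inl hd gh w n z.2 c P →
          Ok V inl hd gh w (n + w v) (z.2.set v ((v, x) :: z.1)) c P := fun k =>
        ⟨k.1, k.2.1, fun y hy => ⟨(k.2.2.1 y hy).1, by
          rw [Arr.get_set]; split_ifs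
          · simp
          · exact (k.2.2.1 y hy).2⟩, k.2.2.2.trans (Nat.le_add_right _ _)⟩
      have nw : Ok V inl hd gh w (n + w v) (z.2.set v ((v, x) :: z.1)) (some v) ((v, x) :: z.1) := by
        refine ⟨.cons a b c h1.1, List.nodup_cons.2 ⟨fun k => ?_, h1.2.1⟩, fun y hy => ?_, ?_⟩
        · obtain ⟨y, hy, rfl⟩ := List.mem_map.1 k
          exact (h1.2.2.1 y hy).2 e
        · rcases List.mem_cons.1 hy with rfl | hy
          · exact ⟨hV _ List.mem_cons_self, by simp⟩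
          · exact (st h1).2.2.1 y hy
        · have := h1.2.2.2
          simp only [wt, List.map_cons, List.sum_cons] at this ⊢; omega
      refine ih hV' nw fun u hu => ?_
      dsimp only at hu ⊢
      by_cases k : u = v
      · rw [k, Arr.get_set_self]; exact nw
      · rw [Arr.get_set_ne _ k] at hu ⊢; exact st (h2 u hu)
    · exact ih hV' (up (h2 v e)) fun u hu => up (h2 u hu)

/-- the invariant of the walk -/
structure WI (V : Finset ℕ) (inl : ℕ → List (ℕ × α)) (hd : α → Option ℕ) (gh : α → Bool)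
    (w : ℕ → ℕ) (bud : ℕ) (st : List (ℕ × ℕ)) (z : WS α) : Prop where
  alive : z.fl = 0 → z.v ∈ V ∧ ∃ y ∈ st, Tr inl hd gh y.2 z.acc (some z.v)
  won : z.fl = 1 → ∃ y ∈ st, Tr inl hd gh y.2 z.acc none
  mem : ∀ y ∈ z.acc, y.1 ∈ V
  wt : wt w z.acc + z.b ≤ bud
  len : z.acc.length + z.b ≤ bud

theorem mv_b (wv : ℕ) (o : Option α) (l : List Bool) (z : WS α) :
    (mv hd gh wv o l z).b = z.b - wv := by
  unfold mv
  cases o with
  | none => rfl
  | some x => dsimp only; split_ifs; · rfl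
              cases hd x <;> rfl

theorem WI.step (N : Net V inl hd K s w) {z : WS α} (h : WI V inl hd gh w bud st z) :
    WI V inl hd gh w bud st (step inl hd gh w K z) := by
  unfold Wk.step
  split_ifs with c1 c2
  · exact h
  · exact ⟨fun k => by simp at k, fun k => by simp at k, h.mem, h.wt, h.len⟩
  obtain ⟨hv, y, hy, t⟩ := h.alive (by omega)
  have h1 := h.wt
  have h2 := h.len
  have h3 := N.wpos _ hv
  unfold mv
  cases ho : pick (rd K (0, z.l)).1 (inl z.v) with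
  | none =>
    exact ⟨fun _ => ⟨hv, y, hy, t⟩, fun k => by simp at k, h.mem, by dsimp only; omega,
      by dsimp only; omega⟩
  | some x =>
    obtain ⟨f, f0, hf⟩ := pick_mem ho
    dsimp only
    split_ifs with g
    · exact ⟨fun k => by simp at k, fun k => by simp at k, h.mem, by dsimp only; omega,
        by dsimp only; omega⟩
    have t' := t.cons f0 hf (Bool.eq_false_iff.2 g)
    have m' : ∀ y ∈ (z.v, x) :: z.acc, y.1 ∈ V := by simpa [hv] using h.mem
    have w' : Wk.wt w ((z.v, x) :: z.acc) + (z.b - w z.v) ≤ bud := by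
      simp only [Wk.wt, List.map_cons, List.sum_cons] at h1 ⊢; omega
    have l' : ((z.v, x) :: z.acc).length + (z.b - w z.v) ≤ bud := by
      rw [List.length_cons]; omega
    cases hx : hd x with
    | none => rw [hx] at t'; exact ⟨fun k => by simp at k, fun _ => ⟨y, hy, t'⟩, m', w', l'⟩
    | some a =>
      rw [hx] at t'
      exact ⟨fun _ => ⟨N.cl _ hv _ hf a hx, y, hy, t'⟩, fun k => by simp at k, m', w', l'⟩

theorem WI.iter (N : Net V inl hd K s w) {z : WS α} (h : WI V inl hd gh w bud st z) (n : ℕ) :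
    WI V inl hd gh w bud st ((Wk.step inl hd gh w K)^[n] z) := by
  induction n with
  | zero => exact h
  | succ n ih => rw [Function.iterate_succ_apply']; exact ih.step N

theorem wi_ini (S : Start V s K0 st) (r : ℕ) (l : List Bool) :
    WI V inl hd gh w bud st (ini bud (pick r st) l) := by
  cases ho : pick r st with
  | none => exact ⟨fun k => by simp [ini] at k, fun k => by simp [ini] at k, by simp [ini],
      by simp [ini, wt], by simp [ini]⟩
  | some x =>
    obtain ⟨f, -, hf⟩ := pick_mem ho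
    exact ⟨fun _ => ⟨S.mem _ hf, _, hf, .nil⟩, fun k => by simp [ini] at k, by simp [ini],
      by simp [ini, wt], by simp [ini]⟩

theorem WI.stem {z : WS α} (h : WI V inl hd gh w bud st z) (k : z.fl = 1) :
    Stem V inl hd gh w bud st (z.acc.foldl (fun s y => er1 y s) ([], Arr.cst [])).1 ∧
      ∀ F, Won F z → ∀ y ∈ (z.acc.foldl (fun s y => er1 y s) ([], Arr.cst [])).1, y.1 ∉ F := by
  obtain ⟨y, hy, t⟩ := h.won k
  obtain ⟨T, a, b, c, d⟩ := erase (V := (z.acc.map Prod.fst).toFinset) (w := w) (n := 0)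
    (z := ([], Arr.cst [])) t (fun y k => List.mem_toFinset.2 (List.mem_map_of_mem k))
    ⟨.nil, List.nodup_nil, by simp, le_rfl⟩ fun v hv => absurd rfl hv
  refine ⟨⟨⟨y, hy, a⟩, b, fun y k => ?_, by have := h.wt; omega⟩, fun F f y k => ?_⟩ <;>
    obtain ⟨y', k', e⟩ := List.mem_map.1 (List.mem_toFinset.1 (c y k).1)
  · exact e ▸ h.mem y' k'
  · exact e ▸ f.2 y' k'

theorem walk_congr (N : Net V inl hd K s w) (S : Start V s K0 st)
    (e : ∀ v ∈ V, w v ≤ bud → inl' v = inl v) (l : List Bool) :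
    walk inl' hd gh w K K0 bud st l = walk inl hd gh w K K0 bud st l := by
  unfold walk
  generalize bud + 1 = n
  induction n with
  | zero => rfl
  | succ n ih =>
    rw [Function.iterate_succ_apply', Function.iterate_succ_apply', ih]
    have h := (wi_ini (inl := inl) (hd := hd) (gh := gh) (w := w) (bud := bud) S
      (rd K0 (0, l)).1 (rd K0 (0, l)).2).iter N n
    unfold step at h ⊢
    split_ifs with c1 c2
    · rfl
    · rfl
    · rw [e _ (h.alive (by omega)).1 (by have := h.wt; omega)]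

end Crest.Agent.N325.Wk
end

-- ▼ part N325/Wk/Prog
section

/-!
# Row 325 (helper79): the program of the backward walks

`walks q hd gh w K K0 bud L J st σ` runs `L` walks on one sample and returns the loop-erased
successful ones; `q` is the exact query of the in-list of a state (state passing), `J` is ghost.
-/

set_option autoImplicit false
open Finset

namespace Crest.Agent.N325.Wk

variable {α σ β : Type} {g : Gl}

/-- read `K` bits -/
def rdR (K : ℕ) (l : List Bool) : R (ℕ × List Bool) :=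
  forN (fun _ s => nat (2 * s.1 + (s.2.headD false).toNat) >>= fun r => pure (r, s.2.tail)) K 0 (0, l)

theorem sp_rdR {K : ℕ} (h : 2 ^ K ≤ g.X) (l : List Bool) :
    Sp g (rdR K l) fun r t => r = rd K (0, l) ∧ t ≤ K + 1 := by
  refine (sp_forN' (fun j (s : ℕ × List Bool) => rd (K - j) s = rd K (0, l) ∧ s.1 < 2 ^ j) 0
    (fun j s _ hj k => ?_) ⟨rfl, Nat.one_pos⟩).mono fun r t k =>
      ⟨by simpa [rd] using k.1.1, by simpa using k.2⟩
  have := Bool.toNat_le (s.2.headD false)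
  have e : 2 ^ (j + 1) ≤ 2 ^ K := Nat.pow_le_pow_right two_pos (by omega)
  rw [sp_bind, sp_nat, sp_pure]
  refine ⟨by have := k.2; omega, ⟨?_, by have := k.2; dsimp only; omega⟩, le_rfl⟩
  rw [← k.1, show K - j = K - (j + 1) + 1 by omega]; rfl

/-- one step of the selection -/
def pk1 (x : ℕ × α) (s : ℕ × Option α) : ℕ × Option α :=
  if s.2.isSome then s else if s.1 < x.1 then (s.1, some x.2) else (s.1 - x.1, none)

theorem foldl_pk1 (l : List (ℕ × α)) (r : ℕ) (o : Option α) :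
    (l.foldl (fun s x => pk1 x s) (r, o)).2 = o.elim (pick r l) some := by
  induction l generalizing r o with
  | nil => cases o <;> rfl
  | cons x l ih =>
    rw [List.foldl_cons, pk1]
    cases o with
    | some y => exact ih _ _
    | none =>
      rw [if_neg (by simp), pick]
      split_ifs <;> exact ih _ _

/-- selection -/
def pickR (r : ℕ) (l : List (ℕ × α)) : R (Option α) := foldP pk1 l (r, none) >>= fun s => pure s.2

theorem sp_pickR (r : ℕ) (l : List (ℕ × α)) :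
    Sp g (pickR r l) fun o t => o = pick r l ∧ t = l.length + 1 :=
  (sp_foldP _ l _).bind fun s t h => ⟨by rw [h.1, foldl_pk1]; rfl, h.2⟩

/-- one step of a walk -/
def stepR (q : ℕ × σ → R (List (ℕ × α) × σ)) (hd : α → Option ℕ) (gh : α → Bool) (w : ℕ → ℕ)
    (K : ℕ) (z : WS α × σ) : R (WS α × σ) :=
  if z.1.fl ≠ 0 then pure z else
  if z.1.b < w z.1.v then pure (⟨z.1.v, z.1.b, z.1.l, z.1.acc, 2⟩, z.2) else do
    let r ← rdR K z.1.l
    let i ← q (z.1.v, z.2)
    let o ← pickR r.1 i.1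
    pure (mv hd gh (w z.1.v) o r.2 z.1, i.2)

/-- one walk, appended to the output when it succeeds -/
def walkR (q : ℕ × σ → R (List (ℕ × α) × σ)) (hd : α → Option ℕ) (gh : α → Bool) (w : ℕ → ℕ)
    (K K0 bud M : ℕ) (st : List (ℕ × ℕ)) (s : List Bool × List (List (ℕ × α)) × σ) :
    R (List Bool × List (List (ℕ × α)) × σ) := do
  let b ← splitL M s.1
  let r ← rdR K0 b.1
  let o ← pickR r.1 st
  let z ← forN (fun _ => stepR q hd gh w K) (bud + 1) 0 (ini bud o r.2, s.2.2)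
  if z.1.fl = 1 then
    foldP er1 z.1.acc ([], Arr.cst []) >>= fun e => pure (b.2, e.1 :: s.2.1, z.2)
  else pure (b.2, s.2.1, z.2)

/-- the value of a deterministic observation of a computation (ghost) -/
noncomputable def det {γ δ : Type} [Nonempty δ] (m : R γ) (f : γ → δ) : δ :=
  Classical.epsilon fun c => ∃ g : Gl, g.d < 1 ∧ Sp g m fun r _ => f r = c

theorem det_eq {γ δ : Type} [Nonempty δ] {m : R γ} {f : γ → δ} {c : δ} (hd : g.d < 1)
    (h : Sp g m fun r _ => f r = c) : det m f = c := by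
  obtain ⟨g', d', h'⟩ := Classical.epsilon_spec
    (p := fun c => ∃ g : Gl, g.d < 1 ∧ Sp g m fun r _ => f r = c) ⟨c, g, hd, h⟩
  obtain ⟨a, -, e1, e2⟩ := ((h.gl (g' := ⟨max g.X g'.X, max g.d g'.d⟩) (le_max_left _ _)
    (le_max_left _ _)).and (h'.gl (le_max_right _ _) (le_max_right _ _))).exists (max_lt hd d')
  exact e2.symm.trans e1

/-- **`L` walks** -/
def walks (q : ℕ × σ → R (List (ℕ × α) × σ)) (hd : α → Option ℕ) (gh : α → Bool) (w : ℕ → ℕ)
    (K K0 bud L : ℕ) (J : Finset (Finset ℕ)) (st : List (ℕ × ℕ)) (s : σ) :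
    R (List (List (ℕ × α)) × σ) := do
  let M ← nat (K0 + (bud + 1) * K)
  let n ← nat (L * M)
  let l ← smp n fun l => ∀ F ∈ J, ∃ b ∈ blocks M L l,
    Won F (walk (fun v => det (q (v, s)) Prod.fst) hd gh w K K0 bud st b)
  let r ← forN (fun _ => walkR q hd gh w K K0 bud M st) L 0 (l, [], s)
  pure r.2

/-- the query: `I σ u t` = invariant after queries of weight `u` and time `t` -/
def Qry (g : Gl) (q : ℕ × σ → R (List (ℕ × α) × σ)) (V : Finset ℕ) (inl : ℕ → List (ℕ × α))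
    (w : ℕ → ℕ) (W : ℕ) (I : σ → ℕ → ℕ → Prop) : Prop :=
  ∀ v ∈ V, (inl v).length ≤ w v ∧ ∀ s u t, u + w v ≤ W → I s u t →
    Sp g (q (v, s)) fun r t' => r.1 = inl v ∧ I r.2 (u + w v) (t + t')

variable {q : ℕ × σ → R (List (ℕ × α) × σ)} {V : Finset ℕ} {inl : ℕ → List (ℕ × α)}
  {hd : α → Option ℕ} {gh : α → Bool} {K K0 bud W L : ℕ} {sk w : ℕ → ℕ} {st : List (ℕ × ℕ)}
  {I : σ → ℕ → ℕ → Prop}

theorem sp_stepR (Q : Qry g q V inl w W I) (hK : 2 ^ K ≤ g.X) {z : WS α} {s : σ} {u t : ℕ}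
    (h : WI V inl hd gh w bud st z) (hu : u + z.b ≤ W) (i : I s u t) :
    Sp g (stepR q hd gh w K (z, s)) fun r t' => r.1 = step inl hd gh w K z ∧ r.1.b ≤ z.b ∧
      ∃ t1, I r.2 (u + (z.b - r.1.b)) (t + t1) ∧ t' ≤ t1 + (z.b - r.1.b) + (K + 2) := by
  unfold stepR step
  dsimp only
  split_ifs with c1 c2
  · exact ⟨rfl, le_rfl, 0, by simpa using i, Nat.zero_le _⟩
  · exact ⟨rfl, le_rfl, 0, by simpa using i, Nat.zero_le _⟩
  have hv := (h.alive (by omega)).1
  refine (sp_rdR hK _).bind ?_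
  rintro _ t1 ⟨rfl, h1⟩
  refine ((Q _ hv).2 s u t (by omega) i).bind ?_
  rintro ⟨l, s'⟩ t2 ⟨rfl, h2⟩
  refine (sp_pickR _ _).bind ?_
  rintro _ t3 ⟨rfl, h3⟩
  have := (Q _ hv).1
  refine ⟨rfl, by rw [mv_b]; omega, t2, ?_, ?_⟩ <;> dsimp only at * <;>
    rw [mv_b, Nat.sub_sub_self (by omega)]
  · exact h2
  · omega

/-- overhead of one walk -/
def cW (K K0 bud n : ℕ) : ℕ := 4 * (K0 + (bud + 1) * K) + 6 * bud + n + 12

theorem sp_walkR (N : Net V inl hd K sk w) (S : Start V sk K0 st) (Q : Qry g q V inl w W I)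
    (hK : 2 ^ K ≤ g.X) (hK0 : 2 ^ K0 ≤ g.X) {l : List Bool} {o : List (List (ℕ × α))} {s : σ}
    {u t : ℕ} (hu : u + bud ≤ W) (i : I s u t) :
    Sp g (walkR q hd gh w K K0 bud (K0 + (bud + 1) * K) st (l, o, s)) fun r t' =>
      r.1 = l.drop (K0 + (bud + 1) * K) ∧ r.2.1.length ≤ o.length + 1 ∧
      (∀ P ∈ r.2.1, P ∈ o ∨ Stem V inl hd gh w bud st P) ∧ (∀ P ∈ o, P ∈ r.2.1) ∧
      (∀ F, Won F (walk inl hd gh w K K0 bud st (l.take (K0 + (bud + 1) * K))) →
        ∃ P ∈ r.2.1, ∀ y ∈ P, y.1 ∉ F) ∧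
      ∃ u1 t1, u1 ≤ bud ∧ I r.2.2 (u + u1) (t + t1) ∧ t' ≤ t1 + cW K K0 bud st.length := by
  unfold walkR
  refine (sp_splitL _ _).bind ?_
  rintro b t1 ⟨rfl, h1⟩
  refine (sp_rdR hK0 _).bind ?_
  rintro _ t2 ⟨rfl, h2⟩
  refine (sp_pickR _ _).bind ?_
  rintro _ t3 ⟨rfl, h3⟩
  dsimp only
  rw [walk]
  generalize rd K0 (0, l.take (K0 + (bud + 1) * K)) = r
  have i0 := wi_ini (inl := inl) (hd := hd) (gh := gh) (w := w) (bud := bud) S r.1 r.2
  have b0 : (ini bud (pick r.1 st) r.2 : WS α).b = bud := by cases pick r.1 st <;> rfl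
  generalize (ini bud (pick r.1 st) r.2 : WS α) = z0 at i0 b0
  refine (sp_forN (fun j (z : WS α × σ) t' => z.1 = (step inl hd gh w K)^[j] z0 ∧ z.1.b ≤ bud ∧
    ∃ t1, I z.2 (u + (bud - z.1.b)) (t + t1) ∧ t' ≤ t1 + (bud - z.1.b) + j * (K + 3))
    (fun j z t' _ _ k => ?_) (t := 0) ⟨rfl, b0.le, 0, by simpa [b0] using i, Nat.zero_le _⟩).bind ?_
  · obtain ⟨e, k1, t1, k2, k3⟩ := k
    refine (sp_stepR Q hK (z := z.1) (s := z.2) (e ▸ i0.iter N j) (by omega) k2).mono ?_
    rintro z' t2 ⟨a, b, t3, c, d⟩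
    refine ⟨by rw [a, e, Function.iterate_succ_apply'], by omega, t1 + t3, ?_, ?_⟩
    · convert c using 1 <;> omega
    · rw [add_mul]; omega
  rintro ⟨z, s'⟩ _ ⟨t4, rfl, e, k1, t5, k2, k3⟩
  simp only [zero_add] at e k1 k2 k3
  rw [← e]
  have iz : WI V inl hd gh w bud st z := e ▸ i0.iter N _
  have e1 : (bud + 1) * (K + 3) = (bud + 1) * K + 3 * bud + 3 := by ring
  dsimp only
  split_ifs with c
  · refine (sp_foldP _ _ _).bind ?_
    rintro _ _ ⟨rfl, rfl⟩
    have := iz.len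
    refine ⟨rfl, le_rfl, fun P k => (List.mem_cons.1 k).elim (fun k => .inr (k ▸ (iz.stem c).1)) .inl,
      fun P k => List.mem_cons_of_mem _ k, fun F f => ⟨_, List.mem_cons_self, (iz.stem c).2 F f⟩,
      _, t5, Nat.sub_le _ _, k2, ?_⟩
    unfold cW; omega
  · refine ⟨rfl, Nat.le_succ _, fun P k => .inl k, fun P k => k, fun F f => absurd f.1 c,
      _, t5, Nat.sub_le _ _, k2, ?_⟩
    unfold cW; omega

/-- **the walks**: stems, and for every `F ∈ J` one that avoids `F` -/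
theorem sp_walks (N : Net V inl hd K sk w) (S : Start V sk K0 st) (Q : Qry g q V inl w (L * bud) I)
    {J : Finset (Finset ℕ)} {κ ε Ex A p : ℝ} {ex a : ℕ → ℝ} {lg c : ℕ} (hκ : 0 ≤ κ) (hε : 0 ≤ ε)
    (hex0 : ∀ v ∈ V, 0 ≤ ex v) (ha0 : ∀ v ∈ V, 0 ≤ a v) (hw : ∀ v ∈ V, (w v : ℝ) ≤ κ * sk v + ex v)
    (hg : ∀ v ∈ V, (gf inl gh v : ℝ) ≤ ε * sk v + a v) (hex : ∑ v ∈ V, ex v ≤ Ex)
    (ha : ∑ v ∈ V, a v ≤ A) (hlg : 1 + V.card * 2 ^ K ≤ 2 ^ lg) (hJ : ∀ F ∈ J, F.card ≤ c)
    (hp : 2 * lg * (2 ^ K * κ / (bud + 1) + ε) +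
      (2 ^ K * Ex / (bud + 1) + A + 2 ^ K * c) / 2 ^ K0 ≤ p)
    (hd1 : g.d < 1) (hd2 : J.card * p ^ L ≤ g.d) (hK : 2 ^ K ≤ g.X) (hK0 : 2 ^ K0 ≤ g.X)
    (hX : (L + 1) * (K0 + (bud + 1) * K) ≤ g.X) {s : σ} (i : I s 0 0) :
    Sp g (walks q hd gh w K K0 bud L J st s) fun r t => r.1.length ≤ L ∧
      (∀ P ∈ r.1, Stem V inl hd gh w bud st P) ∧ (∀ F ∈ J, ∃ P ∈ r.1, ∀ y ∈ P, y.1 ∉ F) ∧
      ∃ u t1, u ≤ L * bud ∧ I r.2 u t1 ∧
        t ≤ t1 + L * (cW K K0 bud st.length + (K0 + (bud + 1) * K) + 1) + 2 := by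
  unfold walks
  rw [add_mul, one_mul] at hX
  rw [sp_bind, sp_nat, sp_bind, sp_nat, sp_bind, sp_smp]
  have hp0 : 0 ≤ p := le_trans (by
    have := (sum_nonneg hex0).trans hex
    have := (sum_nonneg ha0).trans ha
    positivity) hp
  rcases Nat.eq_zero_or_pos L with rfl | hL
  · refine ⟨by omega, by omega, (bad_blocks J (p := 1) zero_le_one (fun F _ => ?_) 0).trans
      (by simpa using hd2), fun l _ gl => ?_⟩
    · rw [← sb_const]; exact sb_mono fun l _ => by split_ifs <;> simp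
    · exact ⟨Nat.zero_le _, le_rfl, by simp, fun F k => by simpa [blocks] using gl F k, 0, 0,
        Nat.zero_le _, i, by simp⟩
  have e : ∀ l, walk (fun v => det (q (v, s)) Prod.fst) hd gh w K K0 bud st l =
      walk inl hd gh w K K0 bud st l := walk_congr N S fun v hv k => det_eq hd1
    (((Q v hv).2 s 0 0 (by nlinarith) i).mono fun _ _ h => h.1)
  simp only [e]
  refine ⟨by omega, by omega, (bad_blocks J hp0 (fun F k => N.walk_fail S hκ hε hex0 ha0 hw hg hex
    ha hlg (le_trans ?_ hp)) L).trans hd2, fun l _ gl => ?_⟩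
  · have : (F.card : ℝ) ≤ c := by exact_mod_cast hJ F k
    gcongr
  generalize hM : K0 + (bud + 1) * K = M at *
  refine (sp_forN (fun j (z : List Bool × List (List (ℕ × α)) × σ) t' => z.2.1.length ≤ j ∧
    (∀ P ∈ z.2.1, Stem V inl hd gh w bud st P) ∧
    (∀ F ∈ J, (∃ P ∈ z.2.1, ∀ y ∈ P, y.1 ∉ F) ∨
      ∃ b ∈ blocks M (L - j) z.1, Won F (walk inl hd gh w K K0 bud st b)) ∧
    ∃ u t1, u ≤ j * bud ∧ I z.2.2 u t1 ∧ t' ≤ t1 + j * (cW K K0 bud st.length + 1))
    (fun j z t' _ hj k => ?_) (t := 0) (s := (l, [], s)) (i := 0)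
    ⟨le_rfl, by simp, fun F k => .inr (gl F k), 0, 0, Nat.zero_le _, i, Nat.zero_le _⟩).bind ?_
  · obtain ⟨k1, k2, k3, u, t1, k4, k5, k6⟩ := k
    have hj' : (j + 1) * bud ≤ L * bud := Nat.mul_le_mul_right _ (by omega)
    rw [add_mul, one_mul] at hj'
    refine (hM ▸ sp_walkR N S Q hK hK0 (l := z.1) (o := z.2.1) (by omega) k5).mono ?_
    rintro z' t2 ⟨a1, a2, a3, a4, a5, u1, t3, a6, a7, a8⟩
    refine ⟨by omega, fun P k => (a3 P k).elim (k2 P) id, fun F k => ?_, _, _,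
      by rw [add_mul]; omega, a7, by rw [add_mul]; omega⟩
    rcases k3 F k with ⟨P, b1, b2⟩ | ⟨b, b1, b2⟩
    · exact .inl ⟨P, a4 P b1, b2⟩
    · rw [show L - j = L - (j + 1) + 1 by omega, blocks] at b1
      rcases List.mem_cons.1 b1 with rfl | b1
      · exact .inl (a5 F b2)
      · exact .inr ⟨b, a1 ▸ b1, b2⟩
  rintro z _ ⟨t4, rfl, k1, k2, k3, u, t1, k4, k5, k6⟩
  simp only [zero_add] at k1 k3 k4 k6
  refine ⟨k1, k2, fun F k => (k3 F k).resolve_right (by simp [blocks]), u, t1, k4, k5, ?_⟩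
  rw [show L * (cW K K0 bud st.length + M + 1) = L * (cW K K0 bud st.length + 1) + L * M by ring]
  omega

/-! ### implementation -/

instance [Rp α] : Rp (WS α) := Rp.via fun s => (s.v, s.b, s.l, s.acc, s.fl)

@[fun_prop] theorem impl_rdR [Rp β] {K : β → ℕ} {l : β → List Bool} (hK : Pu true K)
    (hl : Pu true l) : Impl fun a => rdR (K a) (l a) := by impl

@[fun_prop] theorem impl_pickR [Rp α] [Rp β] {r : β → ℕ} {l : β → List (ℕ × α)} (hr : Pu true r)
    (hl : Pu true l) : Impl fun a => pickR (r a) (l a) := by impl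

@[fun_prop] theorem impl_walks [Rp α] [Rp σ] [Rp β] {q : β → ℕ × σ → R (List (ℕ × α) × σ)}
    {hd : β → α → Option ℕ} {gh : β → α → Bool} {w : β → ℕ → ℕ} {K K0 bud L : β → ℕ}
    (J : β → Finset (Finset ℕ)) {st : β → List (ℕ × ℕ)} {s : β → σ}
    (hq : Impl fun p : β × ℕ × σ => q p.1 p.2) (hh : Pu true fun p : β × α => hd p.1 p.2)
    (hg : Pu false fun p : β × α => gh p.1 p.2) (hw : Pu false fun p : β × ℕ => w p.1 p.2)
    (hK : Pu true K) (hK0 : Pu true K0) (hb : Pu true bud) (hL : Pu true L) (hst : Pu true st)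
    (hs : Pu true s) :
    Impl fun a => walks (q a) (hd a) (gh a) (w a) (K a) (K0 a) (bud a) (L a) (J a) (st a) (s a) := by
  impl

end Crest.Agent.N325.Wk
end

-- ▼ part N325/Wk/Flow
section

/-!
# Row 325 (helper79): walks on a network of the interior point layer

The items are arc ids; `ids v` lists the arcs that feed the state `v`.
-/

set_option autoImplicit false
open Finset

namespace Crest.Agent.N325.Wk

open Crest.Agent.N325.Ip Crest.Agent.N325.Tw Crest.Agent.N325.Op Crest.Agent.N325.Dm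

/-- the in-lists read off a network -/
def inN (N : Ip.Net) (ids : ℕ → List ℕ) (v : ℕ) : List (ℕ × ℕ) :=
  ((ids v).map fun e => ((N.X e).toNat, e)).reverse

/-- the arcs `ids v` feed the state `v`, `nd a` is the node, `ks a` the sink of `a` -/
structure Feed (N : Ip.Net) (V : Finset ℕ) (ids : ℕ → List ℕ) (hd : ℕ → Option ℕ) (nd ks : ℕ → ℕ)
    (K : ℕ) : Prop where
  pos : ∀ e ∈ N.E, 0 ≤ N.X e
  nodup : ∀ v ∈ V, (ids v).Nodup
  mem : ∀ v ∈ V, ∀ e ∈ ids v, e ∈ N.E
  dj : ∀ v ∈ V, ∀ v' ∈ V, ∀ e ∈ ids v, e ∈ ids v' → v = v'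
  tl : ∀ v ∈ V, ∀ e ∈ ids v, ∀ a, hd e = some a → a ∈ V ∧ (N.arc e).a = nd a ∧ e ≠ ks a
  ks : ∀ a ∈ V, ks a ∈ N.E ∧ (N.arc (ks a)).a = nd a
  thr : ∀ a ∈ V, ouf N (nd a) ≤ ((ids a).map N.X).sum ∧ ((ids a).map N.X).sum ≤ 2 ^ K

variable {N : Ip.Net} {V : Finset ℕ} {ids : ℕ → List ℕ} {hd : ℕ → Option ℕ} {nd ks : ℕ → ℕ}
  {K v : ℕ}

theorem mem_inN {y : ℕ × ℕ} : y ∈ inN N ids v ↔ y.2 ∈ ids v ∧ y.1 = (N.X y.2).toNat := by
  simp only [inN, List.mem_reverse, List.mem_map]
  exact ⟨by rintro ⟨e, a, rfl⟩; exact ⟨a, rfl⟩, fun h => ⟨y.2, h.1, Prod.ext h.2.symm rfl⟩⟩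

theorem sum_inN (h : ∀ e ∈ ids v, 0 ≤ N.X e) (p : ℕ → Prop) [DecidablePred p] :
    ((((inN N ids v).map fun y => if p y.2 then y.1 else 0).sum : ℕ) : ℤ) =
      ((ids v).map fun e => if p e then N.X e else 0).sum := by
  rw [inN, List.map_reverse, List.sum_reverse, List.map_map, Nat.cast_list_sum, List.map_map]
  refine congrArg _ (List.map_congr_left fun e he => ?_)
  have := h e he
  simp only [Function.comp]
  split_ifs <;> omega

theorem Feed.tw (h : Feed N V ids hd nd ks K) (hv : v ∈ V) :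
    (tw (inN N ids v) : ℤ) = ((ids v).map N.X).sum := by
  simpa [Wk.tw] using sum_inN (fun e he => h.pos e (h.mem v hv e he)) fun _ => True

theorem Feed.net (h : Feed N V ids hd nd ks K) {w : ℕ → ℕ} (hw : ∀ v ∈ V, 1 ≤ w v) :
    Net V (inN N ids) hd K (fun a => (N.X (ks a)).toNat) w := by
  refine ⟨fun v hv y hy a e => (h.tl v hv _ (mem_inN.1 hy).1 a e).1, fun v hv => ?_,
    fun a ha => ?_, hw⟩
  · have := (h.thr v hv).2
    rw [← h.tw hv] at this
    exact_mod_cast this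
  have e1 : ∀ v ∈ V, (out (inN N ids) hd v a : ℤ) =
      ∑ e ∈ (ids v).toFinset with hd e = some a, N.X e := fun v hv => by
    rw [out, sum_inN (fun e he => h.pos e (h.mem v hv e he)) fun e => hd e = some a, sum_filter,
      List.sum_toFinset _ (h.nodup v hv)]
  have e2 : ∑ v ∈ V, ∑ e ∈ (ids v).toFinset with hd e = some a, N.X e ≤
      ∑ e ∈ (N.E.filter fun e => (N.arc e).a = nd a).erase (ks a), N.X e := by
    rw [← sum_biUnion fun v hv v' hv' ne => disjoint_left.2 fun e a b => ne (h.dj v hv v' hv' e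
      (List.mem_toFinset.1 (mem_filter.1 a).1) (List.mem_toFinset.1 (mem_filter.1 b).1))]
    refine sum_le_sum_of_subset_of_nonneg (fun e he => ?_) fun e he _ =>
      h.pos e (mem_filter.1 (mem_of_mem_erase he)).1
    obtain ⟨v, hv, k⟩ := mem_biUnion.1 he
    obtain ⟨k1, k2⟩ := mem_filter.1 k
    rw [List.mem_toFinset] at k1
    obtain ⟨-, b, c⟩ := h.tl v hv e k1 a k2
    exact mem_erase.2 ⟨c, mem_filter.2 ⟨h.mem v hv e k1, b⟩⟩
  have e3 := sum_erase_add (N.E.filter fun e => (N.arc e).a = nd a) N.X (mem_filter.2 (h.ks a ha))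
  have e4 := (h.thr a ha).1
  have e5 := h.pos _ (h.ks a ha).1
  rw [← h.tw ha, ouf] at e4
  rw [← sum_congr rfl e1, ← Nat.cast_sum] at e2
  omega

/-! ### the query -/

section prog
variable {T : Type} (run : Cmd × T → R (T × Rep × Bool)) (P : Pm)

/-- read one arc -/
def rd1 (e : ℕ) (u : List (ℕ × ℕ) × St T) : R (List (ℕ × ℕ) × St T) :=
  get run P u.2 e >>= fun r => pure ((r.2.toNat, e) :: u.1, r.1)
/-- the in-list of a state -/
def qry (idsR : ℕ → R (List ℕ)) (z : ℕ × St T) : R (List (ℕ × ℕ) × St T) :=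
  idsR z.1 >>= fun l => foldL (rd1 run P) l ([], z.2)
end prog

variable {T : Type} {g : Gl} {run : Cmd × T → R (T × Rep × Bool)} {P : Pm} {B : Bn} {k : IC}
  {Sh : T → Prop} {I : St T → Ip.Net → Prop} {Φ : St T → ℝ}

/-- the invariant of the queries -/
def QI (k : IC) (I : St T → Ip.Net → Prop) (Φ : St T → ℝ) (s0 : St T) (N : Ip.Net) (c : ℕ)
    (s : St T) (u t : ℕ) : Prop :=
  I s N ∧ ∃ n t0, Up k Φ s0 s N N n t0 (2 * k.AU * u) ∧ t ≤ t0 + (c + 2) * u

theorem qry_spec (S : IpSpec g run P B k Sh I Φ) {idsR : ℕ → R (List ℕ)} {w : ℕ → ℕ} {W c : ℕ}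
    {s0 : St T} (hF : Φ s0 + 2 * k.AU * W ≤ B.F) (hm : ∀ v ∈ V, ∀ e ∈ ids v, e ∈ N.E)
    (hl : ∀ v ∈ V, (ids v).length ≤ w v ∧ 1 ≤ w v)
    (hi : ∀ v ∈ V, Sp g (idsR v) fun l t => l = ids v ∧ t ≤ c) :
    Qry g (qry run P idsR) V (inN N ids) w W (QI k I Φ s0 N c) := fun v hv => by
  have h0 : (0 : ℝ) ≤ k.AU := by positivity
  obtain ⟨l1, l2⟩ := hl v hv
  refine ⟨by simpa [inN] using l1, fun s u t hu ⟨i, n, t0, up, f⟩ => (hi v hv).bind ?_⟩
  rintro _ t1 ⟨rfl, ht⟩
  have hu' : (u : ℝ) + w v ≤ W := by exact_mod_cast hu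
  have l1' : ((ids v).length : ℝ) ≤ w v := by exact_mod_cast l1
  have := up.phi
  refine (sp_foldL (fun l' (z : List (ℕ × ℕ) × St T) t' => ∃ l0, ids v = l0 ++ l' ∧
      z.1 = (l0.map fun e => ((N.X e).toNat, e)).reverse ∧ I z.2 N ∧
      ∃ m t2, Up k Φ s z.2 N N m t2 (2 * k.AU * l0.length) ∧ t' ≤ t2 + l0.length)
    (fun e l' z t' ⟨l0, q, a, b, m, t2, up', d⟩ => ?_) (t := 0)
    ⟨[], rfl, rfl, i, [], 0, Up.refl.mono (by simp), le_rfl⟩).mono ?_
  · have hq : ((ids v).length : ℝ) = l0.length + (l'.length + 1) := by rw [q]; simp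
    have : (0 : ℝ) ≤ l'.length := by positivity
    have := up'.phi
    refine (sp_get S b (by nlinarith) (hm v hv e (by simp [q]))).bind
      fun r t3 ⟨a', b', n', _, c'⟩ => ⟨l0 ++ [e], by simp [q], by simp [a, b'], a', _, t2 + t3,
        (up'.trans c').mono ?_, by simp; omega⟩
    simp; linarith
  · rintro z _ ⟨t', rfl, l0, q, a, b, m, t2, up', d⟩
    rw [List.append_nil] at q; subst q
    refine ⟨a, b, _, t0 + t2, (up.trans up').mono ?_, by nlinarith⟩
    push_cast; nlinarith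

@[fun_prop] theorem impl_qry {α : Type} [Rp α] [Rp T] {run : α → Cmd × T → R (T × Rep × Bool)}
    {P : α → Pm} {idsR : α → ℕ → R (List ℕ)} {z : α → ℕ × St T}
    (hr : Impl fun p : α × Cmd × T => run p.1 p.2) (hP : Pu true P)
    (hi : Impl fun p : α × ℕ => idsR p.1 p.2) (hz : Pu true z) :
    Impl fun a => qry (run a) (P a) (idsR a) (z a) := by impl

/-- from stems to walks of the bipartite form -/
theorem Pth.wlk {α : Type} {inl : ℕ → List (ℕ × α)} {hd : α → Option ℕ} {gh : α → Bool} {G : Bg}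
    (hG : ∀ v ∈ V, ∀ f x, (f, x) ∈ inl v → gh x = false →
      (hd x = none → G.mu v = none) ∧ ∀ a, hd x = some a → G.St v a)
    {P : List (ℕ × α)} (h : Pth inl hd gh (some v) P) (hV : ∀ y ∈ P, y.1 ∈ V) :
    On.Wlk G v (P.map Prod.fst) := by
  induction P generalizing v with
  | nil => cases h
  | cons y P ih =>
    cases h with
    | @cons _ f e _ _ m n q =>
      obtain ⟨a, b⟩ := hG v (hV _ List.mem_cons_self) f e m n
      cases c : hd e with
      | none => rw [c] at q; cases q; exact .root (a c)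
      | some z =>
        rw [c] at q
        exact .cons (b z c) (ih q fun y k => hV y (List.mem_cons_of_mem _ k))

end Crest.Agent.N325.Wk
end

-- ▼ part N325/Wk/Inst

/-!
# Row 325, part II (helper79): the walks of the open case
-/

set_option autoImplicit false
open Finset

namespace Crest.Agent.N325.P2

open Crest.Agent.N325.Tw Crest.Agent.N325.Ip Crest.Agent.N325.Mt Crest.Agent.N325.Bf
  Crest.Agent.N325.Op Crest.Agent.N325.Dm Crest.Agent.N325.On Crest.Agent.N325.Wk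

/-- the arcs that feed the class `c` -/
def wIds (G : Gf) (d : Dt) (c : ℕ) : List ℕ :=
  if d.mt.get (d.bs.get c) = d.bs.get c then [5 * d.bs.get c + 1]
  else (5 * d.mt.get (d.bs.get c) + 3) ::
    ((G.adj.get (d.mt.get (d.bs.get c))).filter fun e => d.pr.get (rv e)).map fun e => 5 * rv e
/-- the program of `wIds` -/
def wIdsR (G : Gf) (d : Dt) (c : ℕ) : R (List ℕ) :=
  if d.mt.get (d.bs.get c) = d.bs.get c then nat (5 * d.bs.get c + 1) >>= fun x => pure [x]
  else nat (5 * d.mt.get (d.bs.get c) + 3) >>= fun x =>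
    filterP (fun e => d.pr.get (rv e)) (G.adj.get (d.mt.get (d.bs.get c))) >>= fun l =>
    mapL (fun e => nat (5 * rv e)) l >>= fun m => pure (x :: m)
/-- the class at the tail of an arc -/
def wHd (G : Gf) (d : Dt) (e : ℕ) : Option ℕ :=
  if e % 5 = 0 then some (d.cls.get (G.tl.get (e / 5))) else none

/-- **the walks**: from the classes `z.1`, one avoids any given class of `z.2.1` -/
def wkE {T : Type} (E : Env T) (d : Dt) (z : List ℕ × List ℕ × Ip.St T) :
    R (List (List ℕ) × Ip.St T) :=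
  nat (E.P.D / (2 * E.C.Ph)) >>= fun l =>
  mapL (fun c => nat ((d.cw.get c + 1) * l) >>= fun x => pure (x, c)) z.1 >>= fun st =>
  nat (if z.2.1.isEmpty then 0 else E.C.kb + 2) >>= fun K0 =>
  walks (qry E.run E.P (wIdsR E.G d)) (wHd E.G d) (fun e => decide (e % 5 = 3))
    (fun c => d.cw.get c + 4) E.C.kb K0 E.C.ts E.C.L
    (insert ∅ (z.2.1.toFinset.image singleton)) st z.2.2 >>= fun r =>
  mapL (mapP Prod.fst) r.1 >>= fun W => pure (W, r.2)

section comb
variable {D : ℕ} {C : Cf} {G : Gf} {d : Dt} {N : Net} {c e : ℕ}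

theorem mem_wIds (w : G.WF) (h : Cmb G d) (k : isC G d c) : e ∈ wIds G d c ↔
    (d.mt.get (d.bs.get c) = d.bs.get c ∧ e = 5 * d.bs.get c + 1) ∨
    (d.st.get (d.mt.get (d.bs.get c)) = 1 ∧ (e = 5 * d.mt.get (d.bs.get c) + 3 ∨
      ∃ o < G.nd, d.pr.get o = true ∧ G.hd o = d.mt.get (d.bs.get c) ∧ e = 5 * o)) := by
  obtain ⟨b1, b2, -⟩ := h.bs_lt k
  unfold wIds
  split_ifs with q
  · rw [q, b2]; simp
  · have := (h.bs c k).2.resolve_left q
    simp only [q, this, false_and, false_or, true_and, List.mem_cons, List.mem_map,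
      List.mem_filter, w.mem _ (h.mt_lt b1)]
    refine or_congr_right ⟨?_, ?_⟩
    · rintro ⟨o, ⟨⟨a, b⟩, p⟩, rfl⟩
      exact ⟨rv o, w.rv_lt a, p, by rw [Gf.hd_rv, b], rfl⟩
    · rintro ⟨o, a, p, b, rfl⟩
      exact ⟨rv o, ⟨⟨w.rv_lt a, b⟩, by rwa [rv_rv]⟩, by rw [rv_rv]⟩

theorem nodup_wIds (w : G.WF) (h : Cmb G d) (k : isC G d c) :
    (wIds G d c).Nodup ∧ (wIds G d c).length ≤ 4 := by
  unfold wIds
  split_ifs
  · simp
  · have := (List.length_filter_le (fun e => d.pr.get (rv e)) _).trans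
      (w.deg (d.mt.get (d.bs.get c)))
    refine ⟨List.nodup_cons.2 ⟨fun q => ?_, ((w.nodup _ (h.mt_lt (h.bs_lt k).1)).filter _).map
      fun a b q => ?_⟩, by simp; omega⟩
    · obtain ⟨o, -, q⟩ := List.mem_map.1 q; omega
    · rw [← rv_rv a, ← rv_rv b, show rv a = rv b by omega]

theorem has_wIds (w : G.WF) (h : Cmb G d) (k : isC G d c) (he : e ∈ wIds G d c) : has G d e := by
  have b := (h.bs_lt k).1
  rcases (mem_wIds w h k).1 he with ⟨a, rfl⟩ | ⟨a, rfl | ⟨o, p, q, -, rfl⟩⟩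
  exacts [has1.2 ⟨b, .inr a⟩, has3.2 ⟨h.mt_lt b, by omega⟩, has0.2 ⟨p, q⟩]

/-- the arcs into an inner vertex -/
theorem Arcs.in_inn (A : Arcs D C G d N) (h : Cmb G d) {a : ℕ} (k : d.st.get a = 1) (ha : a < G.n) :
    e ∈ N.E ∧ (N.arc e).b = a + 1 ↔
      e = 5 * a + 3 ∨ ∃ o < G.nd, d.pr.get o = true ∧ G.hd o = a ∧ e = 5 * o := by
  refine ⟨fun ⟨he, q⟩ => (A.in_head h (by omega) he q).imp_right
    fun ⟨o, a, b, c, z⟩ => ⟨o, b, c, z, a⟩, ?_⟩
  rintro (rfl | ⟨o, p, q, rfl, rfl⟩)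
  · have := A.ghost ha (by omega); exact ⟨this.1, by rw [this.2]; rfl⟩
  · have := A.plain p q; exact ⟨this.1, by rw [this.2]; rfl⟩

/-- the feeding arcs carry the flow of the entry arc, that is the throughput of the class -/
theorem Arcs.thr (A : Arcs D C G d N) (w : G.WF) (h : Cmb G d) (k : isC G d c) :
    5 * d.mt.get (d.bs.get c) + 1 ∈ N.E ∧ ouf N (c + 1) = N.X (5 * d.mt.get (d.bs.get c) + 1) ∧
      ((wIds G d c).map N.X).sum = N.X (5 * d.mt.get (d.bs.get c) + 1) := by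
  obtain ⟨b1, b2, b3⟩ := h.bs_lt k
  have m := (A.mem _).2 (has1.2 ⟨h.mt_lt b1, (h.bs c k).2.symm.imp_right fun q => by rw [q, q]⟩)
  have cs : ∀ v, Op.inf N (v + 1) = ouf N (v + 1) := fun v =>
    sub_eq_zero.1 ((dv_eq N _).symm.trans (A.cons _ v.succ_ne_zero))
  refine ⟨m, ?_, ?_⟩
  · rw [← cs, Op.inf, (eq_singleton_iff_unique_mem (s := N.E.filter _)).2 ⟨mem_filter.2 ⟨m, by
      rw [A.arc _ m, arcOf1, aE, h.mt_mt b1, b3]; rfl⟩, fun e he =>
        A.in_cls h k (mem_filter.1 he).1 (mem_filter.1 he).2⟩, sum_singleton]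
  rcases (h.bs c k).2 with q | q
  · simp [wIds, q]
  have ne : d.mt.get (d.bs.get c) ≠ d.bs.get c := fun z => by rw [z] at q; omega
  rw [← List.sum_toFinset _ (nodup_wIds w h k).1, show (wIds G d c).toFinset =
      N.E.filter fun e => (N.arc e).b = d.mt.get (d.bs.get c) + 1 from by
    ext e; simp [mem_wIds w h k, A.in_inn h q (h.mt_lt b1), ne, q]]
  change Op.inf N _ = _
  rw [cs, ouf, (eq_singleton_iff_unique_mem (s := N.E.filter _)).2 ⟨mem_filter.2 ⟨m, by
      rw [A.arc _ m, arcOf1, aE, h.mt_mt b1, if_neg ne.symm]; rfl⟩, fun e he =>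
        ((A.out_head h w (by omega) (mem_filter.1 he).1 (mem_filter.1 he).2).resolve_right
          (by omega)).1⟩, sum_singleton]

theorem wHd0 (o : ℕ) : wHd G d (5 * o) = some (d.cls.get (G.tl.get o)) := by simp [wHd]
theorem wHd_ne (q : e % 5 ≠ 0) : wHd G d e = none := if_neg q

theorem Arcs.feed (A : Arcs D C G d N) (w : G.WF) (h : Cmb G d) (hB : C.B = 2 ^ C.kb)
    (p : ∀ e ∈ N.E, 0 ≤ N.X e ∧ N.X e ≤ (N.arc e).o3) :
    Feed N ((range G.n).filter (isC G d)) (wIds G d) (wHd G d) (· + 1) (5 * · + 2) C.kb := by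
  refine ⟨fun e he => (p e he).1, fun v k => (nodup_wIds w h (mem_filter.1 k).2).1,
    fun v k e he => (A.mem e).2 (has_wIds w h (mem_filter.1 k).2 he), fun v k v' k' e he he' => ?_,
    fun v k e he a q => ?_, fun a k => ?_, fun a k => ?_⟩
  · replace k := (mem_filter.1 k).2
    replace k' := (mem_filter.1 k').2
    have z : d.mt.get (d.bs.get v) = d.mt.get (d.bs.get v') := by
      rcases (mem_wIds w h k).1 he with ⟨a, rfl⟩ | ⟨a, rfl | ⟨o, -, -, b, rfl⟩⟩ <;>
        rcases (mem_wIds w h k').1 he' with ⟨a', q⟩ | ⟨a', q | ⟨o', -, -, b', q⟩⟩ <;> try omega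
      rw [← b, ← b', show o = o' by omega]
    rw [← (h.bs_lt k).2.2, ← (h.bs_lt k').2.2, ← h.mt_mt (h.bs_lt k).1, z,
      h.mt_mt (h.bs_lt k').1]
  · have m := (A.mem e).2 (has_wIds w h (mem_filter.1 k).2 he)
    rcases (mem_wIds w h (mem_filter.1 k).2).1 he with ⟨-, rfl⟩ | ⟨-, rfl | ⟨o, b, r, -, rfl⟩⟩
    · rw [wHd_ne (by omega)] at q; cases q
    · rw [wHd_ne (by omega)] at q; cases q
    rw [wHd0] at q
    cases q
    have := h.out _ (w.tl_lt o b) (h.pr o b r).1
    exact ⟨mem_filter.2 ⟨mem_range.2 this.1, this⟩, by rw [A.arc _ m, arcOf0]; rfl, by omega⟩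
  · have m := (A.mem _).2 (has2.2 (mem_filter.1 k).2)
    exact ⟨m, by rw [A.arc _ m, arcOf2]; rfl⟩
  · obtain ⟨m, a1, a2⟩ := A.thr w h (mem_filter.1 k).2
    have := (p _ m).2
    rw [A.arc _ m, arcOf1, show (aE C d _).o3 = C.B from rfl, hB] at this
    exact ⟨(a1.trans a2.symm).le, a2 ▸ by exact_mod_cast this⟩

theorem wIds_bg (w : G.WF) (h : Cmb G d) (k : isC G d c) (he : e ∈ wIds G d c)
    (q : decide (e % 5 = 3) = false) : (wHd G d e = none → (bgOf G d).mu c = none) ∧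
      ∀ a, wHd G d e = some a → (bgOf G d).St c a := by
  rcases (mem_wIds w h k).1 he with ⟨a, rfl⟩ | ⟨a, rfl | ⟨o, b, r, z, rfl⟩⟩
  · exact ⟨fun _ => if_pos a, fun _ q => by rw [wHd_ne (by omega)] at q; cases q⟩
  · exact absurd (of_decide_eq_false q) (by omega)
  rw [wHd0]
  refine ⟨fun q => (nomatch q), fun _ q => ?_⟩
  cases q
  refine ⟨_, if_neg fun y => ?_, rv o, (w.mem _ (h.mt_lt (h.bs_lt k).1) _).2 ⟨w.rv_lt b, z⟩,
    by simp [bgOf, r], by simp [bgOf]⟩
  rw [y, (h.bs_lt k).2.1] at a; omega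

theorem sp_wIdsR {g : Gl} (w : G.WF) (h : Cmb G d) (k : isC G d c) (hX : 15 * G.n + 5 ≤ g.X) :
    Sp g (wIdsR G d c) fun l t => l = wIds G d c ∧ t ≤ 16 := by
  have b := (h.bs_lt k).1
  have a := h.mt_lt b
  unfold wIdsR wIds
  split_ifs
  · rw [sp_bind, sp_nat]; exact ⟨by omega, rfl, Nat.zero_le _⟩
  rw [sp_bind, sp_nat]
  refine ⟨by omega, (sp_filterP _ _).bind ?_⟩
  rintro _ t ⟨rfl, ht⟩
  refine (sp_mapL' (fun e => 5 * rv e) (fun _ => 0) fun e he => sp_nat.2 ⟨?_, rfl, le_rfl⟩).bind ?_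
  · have := w.rv_lt ((w.mem _ a e).1 (List.mem_filter.1 he).1).1
    have := w.nd_le; omega
  rintro _ t' ⟨rfl, ht'⟩
  have := w.deg (d.mt.get (d.bs.get c))
  have := List.length_filter_le (fun e => d.pr.get (rv e)) (G.adj.get (d.mt.get (d.bs.get c)))
  exact ⟨rfl, by simp at ht' ⊢; omega⟩

theorem gf_wIds (w : G.WF) (h : Cmb G d) (k : isC G d c) (p : ∀ e ∈ N.E, 0 ≤ N.X e)
    (m : ∀ e, e ∈ N.E ↔ has G d e) {y : ℤ} (y0 : 0 ≤ y)
    (hy : ∀ v < G.n, d.st.get v = 1 → N.X (5 * v + 3) ≤ y) :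
    (gf (inN N (wIds G d)) (fun e => decide (e % 5 = 3)) c : ℤ) ≤ y := by
  rw [gf, sum_inN (fun e he => p e ((m e).2 (has_wIds w h k he)))
    fun e => decide (e % 5 = 3) = true]
  unfold wIds
  split_ifs with q
  · simpa [show (5 * d.bs.get c + 1) % 5 ≠ 3 by omega] using y0
  · have := hy _ (h.mt_lt (h.bs_lt k).1) ((h.bs c k).2.resolve_left q)
    simpa [List.map_map, Function.comp_def] using this

end comb

theorem wk_p {Z D Ph ts kb lg : ℕ} (Z0 : (0 : ℝ) < Z) (D0 : (0 : ℝ) < D) (g2 : 64 * lg ≤ Z)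
    (g3 : 128 * lg * Ph * 2 ^ kb ≤ ts * D) (b : Bool) :
    2 * (lg : ℝ) * (2 ^ kb * (8 * Ph / D) / (ts + 1) + 2 / Z) + (2 ^ kb * 0 / (ts + 1) + 0 +
      2 ^ kb * (if b then 0 else 1 : ℕ)) / 2 ^ (if b then 0 else kb + 2) ≤ 1 / 2 := by
  have e1 : 2 * (lg : ℝ) * (2 / Z) ≤ 1 / 16 := by
    have : (64 : ℝ) * lg ≤ Z := by exact_mod_cast g2
    rw [← mul_div_assoc, div_le_iff₀ Z0]; linarith
  have e2 : 2 * (lg : ℝ) * (2 ^ kb * (8 * Ph / D) / (ts + 1)) ≤ 1 / 8 := by
    have : (128 : ℝ) * lg * Ph * 2 ^ kb ≤ ts * D := by exact_mod_cast g3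
    rw [← mul_div_assoc, ← mul_div_assoc, ← mul_div_assoc, div_div, div_le_iff₀ (by positivity)]
    linarith
  have e3 : (2 : ℝ) ^ kb * (if b then 0 else 1 : ℕ) / 2 ^ (if b then 0 else kb + 2) ≤ 1 / 4 := by
    split_ifs
    · simp
    · rw [pow_add, div_le_iff₀ (by positivity)]; norm_num; linarith
  rw [mul_add, mul_zero, zero_div, zero_add, zero_add]; linarith

theorem wk_t {K K0 b n md L r u t2 t3 t5 : ℕ} (h1 : n ≤ md) (h2 : K0 ≤ K + 2) (h3 : r ≤ L)
    (h4 : u ≤ L * b) (h5 : t2 ≤ t3 + L * (cW K K0 b n + (K0 + (b + 1) * K) + 1) + 2)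
    (h6 : t5 ≤ r * (2 * b + 2) + 2 * r + 2) :
    t2 + t5 + 18 * u ≤ t3 + L * ((b + 1) * (10 * K + 27) + md) + 4 := by
  have e1 : cW K K0 b n + (K0 + (b + 1) * K) + 1 + 18 * b + (2 * b + 4) ≤
      (b + 1) * (10 * K + 27) + md := by
    have := Nat.zero_le (b * K)
    unfold cW; linarith
  have e2 := Nat.mul_le_mul_left L e1
  have e3 := Nat.mul_le_mul_right (2 * b + 4) h3
  linarith

namespace Cx
variable {T : Type} (X : Cx T)

/-- the numeric conditions of the walks (`ts` = budget, `L` = number of the walks) -/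
structure WkNum (md : ℕ) : Prop where
  lg : ∃ lg, 1 + X.G.n * X.C.B ≤ 2 ^ lg ∧ 64 * lg ≤ X.C.Z ∧
    128 * lg * X.C.Ph * X.C.B ≤ X.C.ts * X.P.D
  nw : 16 * X.C.Ph * X.C.B ≤ X.C.nu * X.P.D
  d1 : X.g.d < 1
  d2 : (md + 1 : ℝ) * (1 / 2) ^ X.C.L ≤ X.g.d
  gX : (X.C.L + 1) * (X.C.kb + 2 + (X.C.ts + 1) * X.C.kb) ≤ X.g.X

/-- amortised time of one call -/
def wkA (md : ℕ) : ℕ := X.C.L * X.C.ts * (2 * X.k.AU) +
  (X.C.L * ((X.C.ts + 1) * (10 * X.C.kb + 27) + md) + 2 * md + 6)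

variable {X} {md : ℕ}

/-- **the walks** -/
theorem wkStmt (h : X.Ok) (hn : X.WkNum md) : X.WkStmt (wkE X.toEnv) X.C.ts md (X.wkA md) := by
  rintro ⟨s0, d⟩ N iv gd hr i Y D s t hi ⟨il, a1⟩ hY nd hD hw cs
  have hA := iv.arcs; have hc := iv.cmb; have hs := gd.2.snk
  have hg := fun v a (b : d.st.get v = 1) => iv.ghost_le h gd (v := v) a (by rw [b]; omega)
  dsimp only at *
  obtain ⟨lg, g1, g2, g3⟩ := hn.lg
  have p : ∀ e ∈ N.E, 0 ≤ N.X e ∧ N.X e ≤ (N.arc e).o3 := fun e he => by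
    have := Inv.pos h il.1 he
    rw [hA.arc e he, arcOf_o1, ← hA.arc e he] at this; omega
  have F := hA.feed h.wf hc h.B.1 p
  have mV : ∀ {c}, c ∈ (range X.G.n).filter (isC X.G d) ↔ isC X.G d c :=
    ⟨fun k => (mem_filter.1 k).2, fun k => mem_filter.2 ⟨mem_range.2 k.1, k⟩⟩
  have := h.M_le_X; have := h.BD_le; have := h.n_le_M; have hB := h.B.1; have := h.Z_pos
  have P1 : 1 ≤ X.C.Ph := le_trans (by norm_num) h.Ph
  have PD : 2 * X.C.Ph ≤ X.P.D := by
    have := h.lam_le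
    have : X.C.Ph * 1 ≤ X.C.Ph * X.C.Z * X.C.lam := by
      rw [mul_assoc]; exact Nat.mul_le_mul_left _ (Nat.mul_pos (by omega) h.lam_pos)
    omega
  have hl := Nat.div_mul_le_self X.P.D (2 * X.C.Ph)
  have hl' := Nat.lt_div_mul_add (a := X.P.D) (by omega : 0 < 2 * X.C.Ph)
  have l1 := Nat.div_pos PD (by omega)
  unfold wkE
  dsimp only
  generalize X.P.D / (2 * X.C.Ph) = l at *
  have sk : ∀ c, isC X.G d c → (d.cw.get c + 1) * l ≤ (N.X (5 * c + 2)).toNat ∧
      (d.cw.get c + 1) * X.P.D ≤ 2 * X.C.Ph * (N.X (5 * c + 2)).toNat ∧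
      (N.X (5 * c + 2)).toNat ≤ X.C.M := fun c k => by
    have m := (F.ks c (mV.2 k)).1
    have q := p _ m
    have z : (d.cw.get c + 1) * X.P.D ≤ 2 * X.C.Ph * (N.X (5 * c + 2)).toNat := by
      have := hs c k
      rw [← Int.toNat_of_nonneg q.1] at this; exact_mod_cast this
    rw [hA.arc _ m, arcOf2, show (snkA X.C c _).o3 = X.C.M from rfl] at q
    refine ⟨Nat.le_of_mul_le_mul_left (le_trans ?_ z) (by omega), z, by omega⟩
    have := Nat.mul_le_mul_left (d.cw.get c + 1) hl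
    linarith
  have lY : Y.length ≤ On.wsum (wtC d) Y := by
    simpa [On.wsum] using List.sum_le_sum (l := Y) (f := fun _ => 1) (g := wtC d) fun c _ => Nat.le_add_left ..
  rw [sp_bind, sp_nat]
  refine ⟨(Nat.le_mul_of_pos_right l (by omega)).trans (hl.trans (by omega)),
    (sp_mapL' (fun c => ((d.cw.get c + 1) * l, c)) (fun _ => 0) fun c k => by
    rw [sp_bind, sp_nat]; exact ⟨by have := sk c (hY c k); omega, rfl, le_rfl⟩).bind ?_⟩
  rintro _ t1 ⟨rfl, b1⟩
  have kb : 2 ^ (X.C.kb + 2) ≤ X.g.X := by rw [pow_add]; omega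
  generalize e0 : (if D.isEmpty then 0 else X.C.kb + 2) = K0
  have K1 : K0 ≤ X.C.kb + 2 := by rw [← e0]; split_ifs <;> omega
  have K2 : 2 ^ K0 ≤ X.g.X := (Nat.pow_le_pow_right two_pos K1).trans kb
  have tws : tw (Y.map fun c => ((d.cw.get c + 1) * l, c)) = On.wsum (wtC d) Y * l := by
    rw [tw, List.map_map]; exact List.sum_map_mul_right ..
  have nl : 4 * X.C.B ≤ X.C.nu * l := Nat.le_of_mul_le_mul_left (c := 4 * X.C.Ph) (by
    have := hn.nw
    have : 2 * X.C.Ph ≤ l * (2 * X.C.Ph) := Nat.le_mul_of_pos_left _ l1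
    have := Nat.mul_le_mul_left X.C.nu (by omega : X.P.D ≤ 2 * (l * (2 * X.C.Ph)))
    linarith) (by omega)
  have S : Start ((range X.G.n).filter (isC X.G d)) (fun a => (N.X (5 * a + 2)).toNat) K0
      (Y.map fun c => ((d.cw.get c + 1) * l, c)) := by
    refine ⟨fun y k => ?_, fun a k => le_trans ?_ (sk a (mV.1 k)).1, ?_⟩
    · obtain ⟨c, q, rfl⟩ := List.mem_map.1 k; exact mV.2 (hY c q)
    · rw [List.map_map, ← List.sum_toFinset _ nd]
      simp only [Function.comp, sum_ite_eq']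
      split_ifs <;> omega
    · rw [tws]
      rcases cs with ⟨u, rfl, rfl⟩ | cs
      · rw [← e0]; exact Nat.mul_pos lY l1
      · exact (Nat.pow_le_pow_right two_pos K1).trans (by
          rw [pow_add]; have := Nat.mul_le_mul_right l cs; omega)
  have i1 : (i : ℝ) * X.wkA md ≤ 1 * X.wkA md :=
    mul_le_mul_of_nonneg_right (by exact_mod_cast (by omega : i ≤ 1)) (Nat.cast_nonneg _)
  have Q := qry_spec h.ip (s0 := s) (W := X.C.L * X.C.ts) (w := fun c => d.cw.get c + 4) (by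
      have := phi_le_Pt (X := X) (s := s)
      have : (0 : ℝ) ≤ t := by positivity
      have : ((X.C.L * X.C.ts * (2 * X.k.AU) : ℕ) : ℝ) ≤ X.wkA md :=
        Nat.cast_le.2 (Nat.le_add_right ..)
      push_cast at this ⊢; linarith) F.mem
    (fun c k => ⟨(nodup_wIds h.wf hc (mV.1 k)).2.trans (by omega), by omega⟩)
    fun c k => sp_wIdsR h.wf hc (mV.1 k) (g := X.g) (by omega)
  have D0 : (0 : ℝ) < X.P.D := by exact_mod_cast h.D_pos
  have Z0 : (0 : ℝ) < X.C.Z := by exact_mod_cast (by omega : 0 < X.C.Z)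
  have PZ : 0 < X.C.Ph * X.C.Z := Nat.mul_pos P1 (by omega)
  rw [sp_bind, sp_nat]
  refine ⟨(Nat.lt_two_pow_self.le).trans K2, (sp_walks (F.net fun _ _ => by omega) S Q
    (κ := 8 * X.C.Ph / X.P.D) (ε := 2 / X.C.Z) (ex := fun _ => 0) (a := fun _ => 0) (Ex := 0) (A := 0)
    (p := 1 / 2) (lg := lg) (c := if D.isEmpty then 0 else 1) (by positivity) (by positivity)
    (fun _ _ => le_rfl) (fun _ _ => le_rfl) (fun c k => ?_) (fun c k => ?_) (by simp) (by simp)
    ?_ (fun J k => ?_) ?_ hn.d1 (le_trans ?_ hn.d2) (by omega) K2 (le_trans (by gcongr) hn.gX)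
    ⟨il.1, [], 0, Up.refl.mono (by simp), le_rfl⟩).bind ?_⟩
  · have : ((d.cw.get c + 1) * X.P.D : ℝ) ≤ 2 * X.C.Ph * (N.X (5 * c + 2)).toNat := by
      exact_mod_cast (sk c (mV.1 k)).2.1
    have : (0 : ℝ) ≤ d.cw.get c * X.P.D := by positivity
    rw [add_zero, div_mul_eq_mul_div, le_div_iff₀ D0]; push_cast; linarith
  · have q := gf_wIds h.wf hc (mV.1 k) F.pos hA.mem (y := (X.P.D / (X.C.Ph * X.C.Z) : ℕ))
      (by positivity) fun v a b => by
        push_cast
        exact Int.le_ediv_of_mul_le (by exact_mod_cast PZ) (by rw [mul_comm]; exact hg v a b)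
    have q' := (Nat.mul_le_mul_right _ (Int.ofNat_le.1 q)).trans
      (Nat.div_mul_le_self X.P.D (X.C.Ph * X.C.Z))
    have z := (sk c (mV.1 k)).2.1
    have := Nat.le_mul_of_pos_left X.P.D (d.cw.get c).succ_pos
    have y : _ * X.C.Z ≤ 2 * (N.X (5 * c + 2)).toNat :=
      Nat.le_of_mul_le_mul_left (c := X.C.Ph) ((mul_left_comm ..).le.trans (q'.trans (by linarith))) P1
    rw [add_zero, div_mul_eq_mul_div, le_div_iff₀ Z0]
    exact_mod_cast y
  · have := Nat.mul_le_mul_right X.C.B ((card_filter_le (range X.G.n) (isC X.G d)).trans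
      (card_range _).le)
    rw [← hB]; omega
  · rcases mem_insert.1 k with rfl | k
    · simp
    · obtain ⟨x, k, rfl⟩ := mem_image.1 k
      cases D <;> simp at k ⊢
  · rw [← e0]; exact wk_p Z0 D0 g2 (hB ▸ g3) _
  · gcongr
    exact_mod_cast (card_insert_le _ _).trans (Nat.succ_le_succ (card_image_le.trans
      ((List.toFinset_card_le _).trans hD)))
  rintro r t2 ⟨c1, c2, c3, u, t3, c4, ⟨c5, n, t4, up, c6⟩, c7⟩
  have ln : ∀ P ∈ r.1, On.wsum (wtC d) (P.map Prod.fst) ≤ X.C.ts ∧ P.length ≤ X.C.ts := fun P k => by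
    have := (c2 P k).wt
    refine ⟨le_trans ?_ this, le_trans ?_ this⟩
    · rw [On.wsum, List.map_map]; exact List.sum_le_sum fun y _ => by simp [wtC]
    · exact le_trans (by simp) (List.sum_le_sum (l := P) (f := fun _ => 1) fun _ _ =>
        Nat.succ_pos _)
  refine (sp_mapL' (List.map Prod.fst) (fun _ => 2 * X.C.ts + 2) fun P k =>
    (sp_mapP _ _).mono fun _ _ q => ⟨q.1, by have := (ln P k).2; omega⟩).bind ?_
  rintro _ t5 ⟨rfl, b5⟩
  obtain ⟨P0, k0, -⟩ := c3 ∅ (mem_insert_self ..)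
  refine ⟨⟨il.up c5 up, ?_⟩, by simpa using c1, by simpa using List.ne_nil_of_mem k0,
    fun W k => ?_, fun x k => ?_⟩
  · have := Pt_up up
    have : (u : ℝ) ≤ X.C.L * X.C.ts := by exact_mod_cast c4
    have := mul_le_mul_of_nonneg_left this (by positivity : (0 : ℝ) ≤ 2 * X.k.AU)
    simp only [List.map_const', List.sum_replicate, smul_eq_mul, List.length_map] at b1 b5 c7
    have := wk_t (lY.trans hw) K1 c1 c4 c7 b5
    have : ((t1 + (t2 + t5) + X.C.L * X.C.ts * (2 * X.k.AU) : ℕ) : ℝ) ≤ (t4 + X.wkA md : ℕ) :=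
      Nat.cast_le.2 (by unfold wkA; omega)
    push_cast at this ⊢; linarith
  · obtain ⟨P, k', rfl⟩ := List.mem_map.1 k
    obtain ⟨y, q, z⟩ := (c2 P k').pth
    obtain ⟨x, q', rfl⟩ := List.mem_map.1 q
    exact ⟨⟨x, q', z.wlk (fun v a f e b => wIds_bg h.wf hc (mV.1 a) (mem_inN.1 b).1)
      (c2 P k').mem⟩, (ln P k').1⟩
  · obtain ⟨P, q, z⟩ := c3 {x} (mem_insert_of_mem (mem_image_of_mem _ (List.mem_toFinset.2 k)))
    refine ⟨_, List.mem_map_of_mem q, fun m => ?_⟩
    obtain ⟨y, m', rfl⟩ := List.mem_map.1 m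
    exact z y m' (mem_singleton_self _)

end Cx

end Crest.Agent.N325.P2
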